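import Vale.Agent.P032X.H892.LtH
import Vale.Agent.P032X.H286.A73
import Vale.Agent.P032X.Cert.X1b.T
import Vale.Agent.P032X.Cert.X1b.WT
import Vale.Agent.P032X.Cert.X1b.MQ000

set_option maxRecDepth 1000000

namespace Vale.Agent.P032X.Cert.X1b

open Vale.Agent.P032.H820.K Vale.Agent.P032.H357.MK Vale.Agent.P032.H286.E Vale.Agent.P032.H61 Vale.Agent.P032.H61.TF Vale.Agent.P032.BlkE Vale.Agent.P032.BlkS Vale.Agent.P032.H357 Vale.Agent.P032 

def cM : List ℕ := [0, 8, 16, 24, 32, 40, 48, 792, 816, 832, 840, 848, 856, 1048, 1056, 1240, 1248, 1256, 1264, 1272, 1280, 1288, 1296, 1304, 1312, 1320, 1344, 1360, 1368, 1376, 1432, 1440, 1448, 1456, 1464, 1472, 1480, 1488, 1496, 1504, 1512, 1520, 1528, 1560, 1568, 1576, 1584, 1624, 606339, 606211, 2260995, 1654811, 639003, 638979, 1163419, 1671171, 1179, 1654939, 1359875, 1155, 589827, 1671323, 589955, 1654787, 1229275, 425987, 98307, 2408451, 1147291, 1327107, 2408859, 1146883, 622595, 1114179, 1229211, 950275, 1114587, 1114523, 1130971, 82395, 1589251, 81923, 933891, 2162691, 1130499,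 98715, 1638403, 3, 115099, 1589315, 2277443, 1114115, 950339, 1589659, 2163099, 1228803, 950683, 2244611, 1097731, 1081347, 1064963, 1068443, 1084827, 789915, 52635, 16387, 1310723, 2113539, 1343491, 393219, 1363355, 2264475, 2097155, 524291, 2031619, 19867, 786435, 49155, 2117019, 1314203, 1622019, 2113603, 2100635, 1346971, 819203, 822747, 675227, 544539, 557059, 822683, 1179651, 1753091, 1052059, 671747, 1183131, 1048579, 396699, 560539, 1756571, 32771, 262147, 278531, 266011, 1625883, 282395, 409603, 429851, 36635, 540675, 458755, 2150171, 2363163, 1576731, 315163, 2215707, 212995, 2211843, 1458179, 216859, 2146307, 1527579, 462619, 1478427, 884739, 1445659, 1380123, 1474563, 298779, 2133787, 2129923, 479003, 2232091, 1441795, 446235, 2048003, 1572867, 1871643, 1851395, 1703939, 1298203, 1789723, 1884163, 1953563, 347931, 1494811, 986907, 2314011, 835587, 708379, 1920795, 2080771, 2330395, 200475, 872219, 2297627, 1687555, 364315, 380699, 773915, 1511195, 802819, 1822491, 904987, 1281819, 1720323, 1249051, 757531, 855835,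 1773339, 65539, 724763, 2068251, 691995, 573443, 245763, 507907, 1376259, 1937179, 1806107, 2379547, 659227, 1982467, 2015235, 163843, 2228227, 147459, 180227, 921371, 1609499, 688131, 249627, 327683, 1036059, 1523715, 1216283, 1556483, 1540099, 655363, 1392643, 2359299, 2179075, 2392067, 2195459, 2375683, 1196035, 2395931, 1212419, 1396507, 1015811, 999427, 1019675, 1933315, 1802243, 413467, 1409027, 901123, 1277955, 151323, 1707803, 1543963, 1867779, 1462043, 1769475, 2182939, 2199323, 331547, 167707, 753667, 1245187, 1425411, 184091, 1724187, 131075, 311299, 344067, 1949699, 983043, 2084635, 1998851, 1490947, 1736707, 491523, 376835, 770051, 704515, 917507, 360451, 1691419, 2424835, 233243, 2428699, 2326531, 196611, 2064387, 2310147, 1966083, 2293763, 2051867, 2035483, 1199899, 970523, 1560347, 1904411, 868355, 1969947, 511771, 1294339, 2002715, 495387, 1900547, 1785859, 1888027, 1838875, 1261571, 737283, 1855259, 806683, 1818627, 69403, 2019099, 1986331, 851971, 2346779, 1429275, 1412891, 1835011, 1265435, 741147, 2342915]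

theorem lM : Vale.Agent.P032.Lt.Qy ME.e := Vale.Agent.P032.Lt.qs_nil MQ000.q0

theorem qM : Qy 73 73 TBm (cM.map (mX3 (EX1b xs7) ([]) Vale.Agent.P032X.Cert.X1b.t1 Vale.Agent.P032X.Cert.X1b.tW PX 120 PX 120 TG (Vale.Agent.P032.H357.SymV.n5eC 73 TF.TB))) := Vale.Agent.P032.Lt.q_of (by decide +kernel) lM

end Vale.Agent.P032X.Cert.X1b
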