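import Vale.Agent.P032X.H892.LtH
import Vale.Agent.P032X.H286.A73
import Vale.Agent.P032X.Cert.X1b.T
import Vale.Agent.P032X.Cert.X1b.WQ000
import Vale.Agent.P032X.Cert.X1b.WQ001
import Vale.Agent.P032X.Cert.X1b.WQ002
import Vale.Agent.P032X.Cert.X1b.WQ003

set_option maxRecDepth 1000000

namespace Vale.Agent.P032X.Cert.X1b.WH000

open Vale.Agent.P032.H820.K Vale.Agent.P032.H357.MK Vale.Agent.P032.H286.E Vale.Agent.P032.H61 Vale.Agent.P032.H61.TF Vale.Agent.P032.BlkE Vale.Agent.P032.BlkS Vale.Agent.P032.H357 Vale.Agent.P032 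

theorem w0 : Wx (EX1w xs7) Vale.Agent.P032X.Cert.X1b.t1 (Vale.Agent.P032.H357.SymV.n5eC 73 TF.TB) WQ000.W0 := ⟨[0, 8, 16, 24, 32, 40, 48, 792, 832, 840, 848, 856, 4, 12, 20, 28, 36, 44, 52, 60, 68, 76, 84, 92, 100, 108, 116, 124, 132, 3506689, 4423937, 7701121, 16252993, 7897497, 16253337, 7897153, 7700993, 4423809, 3506817, 3506625, 7701057, 3506649, 15041241, 3506561, 4424769, 7701185, 14156481],
  Vale.Agent.P032.Lt.q_of (e' := WQ000.e0) (by decide +kernel) WQ000.q0⟩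

theorem w1 : Wx (EX1w xs7) Vale.Agent.P032X.Cert.X1b.t1 (Vale.Agent.P032.H357.SymV.n5eC 73 TF.TB) WQ000.W1 := ⟨[0, 8, 16, 24, 32, 40, 48, 80, 760, 792, 816, 832, 840, 848, 856, 4, 12, 20, 28, 36, 44, 52, 60, 68, 76, 84, 92, 100, 108, 116, 124, 132, 140, 148, 156, 164, 172, 180, 11763713, 6069441, 7540121, 10848201, 593305, 3215001, 2493825, 8916377, 4784193, 10682433, 7569473, 4424729, 4425113, 5477185],
  Vale.Agent.P032.Lt.q_of (e' := WQ000.e1) (by decide +kernel) WQ000.q1⟩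

theorem w2 : Wx (EX1w xs7) Vale.Agent.P032X.Cert.X1b.t1 (Vale.Agent.P032.H357.SymV.n5eC 73 TF.TB) WQ000.W2 := ⟨[0, 8, 16, 24, 32, 40, 48, 816, 832, 840, 848, 856, 4, 12, 20, 28, 36, 44, 52, 60, 68, 76, 84, 92, 100, 108, 116, 124, 132, 140, 148, 156, 164, 172, 8916377, 10847849, 2490393, 819201, 4787289, 3211521, 5246425],
  Vale.Agent.P032.Lt.q_of (e' := WQ000.e2) (by decide +kernel) WQ000.q2⟩

theorem w3 : Wx (EX1w xs7) Vale.Agent.P032X.Cert.X1b.t1 (Vale.Agent.P032.H357.SymV.n5eC 73 TF.TB) WQ000.W3 := ⟨[0, 8, 16, 24, 32, 40, 48, 792, 832, 840, 848, 856, 4, 12, 20, 28, 36, 44, 52, 60, 68, 76, 84, 92, 100, 108, 116, 124, 132, 140, 1052121, 10682369, 10682433, 7962625, 1048641, 1052057, 1048577, 7962689],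
  Vale.Agent.P032.Lt.q_of (e' := WQ000.e3) (by decide +kernel) WQ000.q3⟩

theorem w4 : Wx (EX1w xs7) Vale.Agent.P032X.Cert.X1b.t1 (Vale.Agent.P032.H357.SymV.n5eC 73 TF.TB) WQ000.W4 := ⟨[0, 8, 16, 24, 32, 40, 48, 216, 816, 840, 848, 856, 4, 12, 20, 28, 36, 44, 52, 60, 68, 76, 84, 92, 100, 108, 116, 124, 132, 140, 148, 156, 8355841, 12222465, 14319617, 15568665, 6064769, 691993, 15204353, 8654617, 10161945, 11931417, 6917913, 4424921, 4424025, 14913025, 1413017, 5934873, 4161537, 6098713, 7507737, 13307673, 8294169, 16125721, 5115673, 13438745, 7376665, 9306113, 9244441, 9375513, 1376257, 4230937, 11996953, 11468801, 11436033, 2133785, 5377817, 2031617, 560921, 11993089, 4030465, 13143833, 14552857, 10522393, 3870489, 36633, 11669273, 9764865, 13533185, 1904409, 12586777, 5210113, 1048577],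
  Vale.Agent.P032.Lt.q_of (e' := WQ000.e4) (by decide +kernel) WQ000.q4⟩

theorem w5 : Wx (EX1w xs7) Vale.Agent.P032X.Cert.X1b.t1 (Vale.Agent.P032.H357.SymV.n5eC 73 TF.TB) WQ000.W5 := ⟨[0, 8, 16, 24, 32, 40, 48, 840, 848, 856, 4, 12, 20, 28, 36, 44, 52, 60, 68, 76, 84, 92, 100, 108, 116, 124, 1019737, 1736705, 4424025, 1740569, 8359705, 9672153, 1052441, 11501697, 1048577],
  Vale.Agent.P032.Lt.q_of (e' := WQ000.e5) (by decide +kernel) WQ000.q5⟩

theorem w6 : Wx (EX1w xs7) Vale.Agent.P032X.Cert.X1b.t1 (Vale.Agent.P032.H357.SymV.n5eC 73 TF.TB) WQ000.W6 := ⟨[0, 8, 16, 24, 32, 40, 48, 216, 816, 840, 848, 856, 4, 12, 20, 28, 36, 44, 52, 60, 68, 76, 84, 92, 100, 108, 116, 124, 132, 140, 148, 156, 164, 172, 180, 8355841, 4427841, 4428225, 14974977, 11337729, 4424921, 4424025, 3440641, 5537793, 14123009, 12877825, 4259841, 14811137, 12648449, 10354689, 13700889, 1998849, 10719001, 2166553, 8949529, 1773337, 2330393,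 4034329, 3411737, 13045529, 12582913, 1740569, 2264857],
  Vale.Agent.P032.Lt.q_of (e' := WQ000.e6) (by decide +kernel) WQ000.q6⟩

theorem w7 : Wx (EX1w xs7) Vale.Agent.P032X.Cert.X1b.t1 (Vale.Agent.P032.H357.SymV.n5eC 73 TF.TB) WQ000.W7 := ⟨[0, 8, 16, 24, 32, 40, 48, 832, 840, 848, 856, 4, 12, 20, 28, 36, 44, 52, 60, 68, 76, 84, 92, 100, 108, 116, 124, 132, 5242881, 5242945, 4424729, 4425113, 14221313, 5475993, 11599873, 5474881, 6521689, 6521049, 363929, 6917593, 12222529, 7503937, 7507417],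
  Vale.Agent.P032.Lt.q_of (e' := WQ000.e7) (by decide +kernel) WQ000.q7⟩

theorem w8 : Wx (EX1w xs7) Vale.Agent.P032X.Cert.X1b.t1 (Vale.Agent.P032.H357.SymV.n5eC 73 TF.TB) WQ000.W8 := ⟨[0, 8, 16, 24, 32, 40, 48, 832, 840, 848, 856, 4, 12, 20, 28, 36, 44, 52, 60, 68, 76, 84, 92, 100, 108, 116, 124, 132, 140, 1052121, 1048641, 7962625, 10849945, 1052057, 1048577, 5967257, 10849817, 7962689],
  Vale.Agent.P032.Lt.q_of (e' := WQ000.e8) (by decide +kernel) WQ000.q8⟩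

theorem w9 : Wx (EX1w xs7) Vale.Agent.P032X.Cert.X1b.t1 (Vale.Agent.P032.H357.SymV.n5eC 73 TF.TB) WQ000.W9 := ⟨[0, 8, 16, 24, 32, 40, 48, 224, 792, 832, 840, 848, 856, 4, 12, 20, 28, 36, 44, 52, 60, 68, 76, 84, 92, 100, 108, 116, 124, 132, 140, 148, 2592537, 10915609, 462617, 3637249, 11173889, 13926401, 442369, 12091393, 184089, 8687385, 15437593, 413465, 5803801, 4624153, 85785, 315161, 9830401, 151321, 380697, 2260993],
  Vale.Agent.P032.Lt.q_of (e' := WQ000.e9) (by decide +kernel) WQ000.q9⟩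

theorem w10 : Wx (EX1w xs7) Vale.Agent.P032X.Cert.X1b.t1 (Vale.Agent.P032.H357.SymV.n5eC 73 TF.TB) WQ000.W10 := ⟨[0, 8, 16, 24, 32, 40, 48, 840, 848, 856, 4, 12, 20, 28, 36, 44, 52, 60, 68, 76, 84, 92, 100, 108, 116, 124, 132, 140, 11501569, 11505433, 1052441, 9502721, 12226329, 9506585, 6258689, 6262553],
  Vale.Agent.P032.Lt.q_of (e' := WQ000.e10) (by decide +kernel) WQ000.q10⟩

theorem w11 : Wx (EX1w xs7) Vale.Agent.P032X.Cert.X1b.t1 (Vale.Agent.P032.H357.SymV.n5eC 73 TF.TB) WQ000.W11 := ⟨[0, 8, 16, 24, 32, 40, 48, 760, 792, 816, 840, 848, 856, 4, 12, 20, 28, 36, 44, 52, 60, 68, 76, 84, 92, 100, 108, 116, 124, 132, 140, 148, 156, 164, 172, 180, 7864449, 4165401, 6360857, 6590297, 2330393, 12582913, 6914049, 4427841, 4428225, 8355841, 12845057, 753665, 118553, 6619137, 10813441, 6160385, 13959169, 10420225, 6815745, 11960321, 4915201, 16385, 9506585],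
  Vale.Agent.P032.Lt.q_of (e' := WQ000.e11) (by decide +kernel) WQ000.q11⟩

theorem w12 : Wx (EX1w xs7) Vale.Agent.P032X.Cert.X1b.t1 (Vale.Agent.P032.H357.SymV.n5eC 73 TF.TB) WQ000.W12 := ⟨[0, 8, 16, 24, 32, 40, 48, 832, 840, 848, 856, 4, 12, 20, 28, 36, 44, 52, 60, 68, 76, 84, 92, 100, 108, 116, 124, 132, 140, 148, 1052057, 1052121, 7962625, 10849945],
  Vale.Agent.P032.Lt.q_of (e' := WQ000.e12) (by decide +kernel) WQ000.q12⟩

theorem w13 : Wx (EX1w xs7) Vale.Agent.P032X.Cert.X1b.t1 (Vale.Agent.P032.H357.SymV.n5eC 73 TF.TB) WQ000.W13 := ⟨[0, 8, 16, 24, 32, 40, 48, 840, 848, 856, 4, 12, 20, 28, 36, 44, 52, 60, 68, 76, 84, 92, 100, 108, 116, 124, 132, 140, 148, 156, 164, 172, 8355841, 4427841, 1048577, 2458625, 4424025, 4259841, 14811137, 6127617, 13631489, 2392065, 11439897, 3084057, 4620289, 11436033, 2330393, 12648449, 10719001, 7933721, 16158489, 10354689, 4030465, 8814593, 7016217, 1998849, 10256385, 15896345,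 14123009, 3411737, 3865, 12586777, 2264857],
  Vale.Agent.P032.Lt.q_of (e' := WQ000.e13) (by decide +kernel) WQ000.q13⟩

theorem w14 : Wx (EX1w xs7) Vale.Agent.P032X.Cert.X1b.t1 (Vale.Agent.P032.H357.SymV.n5eC 73 TF.TB) WQ000.W14 := ⟨[0, 8, 16, 24, 32, 40, 48, 840, 848, 856, 4, 12, 20, 28, 36, 44, 52, 60, 68, 76, 84, 92, 100, 108, 116, 124, 132, 140, 148, 156, 12586777, 8359705, 14910361, 11505561, 6914049, 2260993, 4428225, 12025857, 5478169, 10915609, 12128025, 13926401, 98305, 753665, 2555905, 1343489, 4624153, 5144577, 16154625, 6750209, 8650753, 11927553, 10092545, 6590297, 2326529, 15368193, 1576857, 10715137],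
  Vale.Agent.P032.Lt.q_of (e' := WQ000.e14) (by decide +kernel) WQ000.q14⟩

theorem w15 : Wx (EX1w xs7) Vale.Agent.P032X.Cert.X1b.t1 (Vale.Agent.P032.H357.SymV.n5eC 73 TF.TB) WQ000.W15 := ⟨[0, 8, 16, 24, 32, 40, 48, 832, 840, 848, 856, 4, 12, 20, 28, 36, 44, 52, 60, 68, 76, 84, 92, 100, 108, 116, 124, 132, 140, 148, 5242945, 14485969, 11599873, 5474457, 822681, 5242881],
  Vale.Agent.P032.Lt.q_of (e' := WQ000.e15) (by decide +kernel) WQ000.q15⟩

theorem w16 : Wx (EX1w xs7) Vale.Agent.P032X.Cert.X1b.t1 (Vale.Agent.P032.H357.SymV.n5eC 73 TF.TB) WQ000.W16 := ⟨[0, 8, 16, 24, 32, 40, 48, 128, 168, 176, 792, 816, 840, 848, 856, 4, 12, 20, 28, 36, 44, 52, 60, 68, 76, 84, 92, 100, 108, 116, 124, 132, 140, 148, 156, 164, 172, 180, 188, 196, 204, 212, 220, 4424025, 2264857, 5406721, 15961881, 6064193, 8654617, 10161945, 6754073, 10096409, 14912897, 1412889, 3112961, 2228225, 2330393, 10719001, 11108353, 15798041, 5013505,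 3149593, 268865, 12753473, 3477273, 14453601, 15695873, 12582913, 4424921, 8982297, 10981145, 5934873, 14946073, 11112217, 13897497, 8262929, 8523545, 3309569, 4456577, 12812289, 5902233, 6291457, 7638809, 5898369],
  Vale.Agent.P032.Lt.q_of (e' := WQ000.e16) (by decide +kernel) WQ000.q16⟩

theorem w17 : Wx (EX1w xs7) Vale.Agent.P032X.Cert.X1b.t1 (Vale.Agent.P032.H357.SymV.n5eC 73 TF.TB) WQ000.W17 := ⟨[0, 8, 16, 24, 32, 40, 48, 160, 176, 840, 848, 856, 4, 12, 20, 28, 36, 44, 52, 60, 68, 76, 84, 92, 100, 108, 116, 124, 132, 140, 148, 156, 164, 14188545, 12586777, 12582913, 2264857, 10715137, 4427841, 4428225, 2458369, 1052441, 14910361, 5931009, 1409025, 8650753, 10092545, 11927553, 6066777, 269465, 11112217, 5902233, 3670337, 2068249, 15794177, 2363161, 2232089, 2326529, 12058945, 5701761, 10977409, 14942209, 12816153, 8259233, 11108353, 4460313, 7638809, 2330393, 3313433],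
  Vale.Agent.P032.Lt.q_of (e' := WQ000.e17) (by decide +kernel) WQ000.q17⟩

theorem w18 : Wx (EX1w xs7) Vale.Agent.P032X.Cert.X1b.t1 (Vale.Agent.P032.H357.SymV.n5eC 73 TF.TB) WQ000.W18 := ⟨[0, 8, 16, 24, 32, 40, 48, 816, 832, 840, 848, 856, 4, 12, 20, 28, 36, 44, 52, 60, 68, 76, 84, 92, 100, 108, 116, 124, 132, 12582913, 5477529, 6524481, 7114521, 2458369, 1806105, 6525249],
  Vale.Agent.P032.Lt.q_of (e' := WQ000.e18) (by decide +kernel) WQ000.q18⟩

theorem w19 : Wx (EX1w xs7) Vale.Agent.P032X.Cert.X1b.t1 (Vale.Agent.P032.H357.SymV.n5eC 73 TF.TB) WQ000.W19 := ⟨[0, 8, 16, 24, 32, 40, 48, 176, 840, 848, 856, 4, 12, 20, 28, 36, 44, 52, 60, 68, 76, 84, 92, 100, 108, 116, 124, 132, 140, 148, 8355841, 12586777, 12582913, 4428225, 14910361, 11505561, 6914049, 2461273, 4427841, 10915609, 6262553, 4165401, 2592537, 7340033, 8749057, 4096001, 10190849, 1933313, 688129, 8650753, 6590297, 8388609, 11534337, 3801089, 2326529,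 10715137, 15368193, 11112217, 1576729, 2330393, 1052441],
  Vale.Agent.P032.Lt.q_of (e' := WQ000.e19) (by decide +kernel) WQ000.q19⟩

theorem w20 : Wx (EX1w xs7) Vale.Agent.P032X.Cert.X1b.t1 (Vale.Agent.P032.H357.SymV.n5eC 73 TF.TB) WQ000.W20 := ⟨[0, 8, 16, 24, 32, 40, 48, 832, 840, 848, 856, 4, 12, 20, 28, 36, 44, 52, 60, 68, 76, 84, 92, 100, 108, 116, 124, 132, 140, 148, 15040985, 15040921, 7700993, 10878977, 9797633, 10879385, 4424577, 14910105, 16253401, 7864385],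
  Vale.Agent.P032.Lt.q_of (e' := WQ000.e20) (by decide +kernel) WQ000.q20⟩

theorem w21 : Wx (EX1w xs7) Vale.Agent.P032X.Cert.X1b.t1 (Vale.Agent.P032.H357.SymV.n5eC 73 TF.TB) WQ000.W21 := ⟨[0, 8, 16, 24, 32, 40, 48, 832, 840, 848, 856, 4, 12, 20, 28, 36, 44, 52, 60, 68, 76, 84, 92, 100, 108, 116, 124, 132, 140, 15040577, 15040513, 9798041, 16253337, 7700633, 3965185, 5472321, 9797633, 5603737],
  Vale.Agent.P032.Lt.q_of (e' := WQ000.e21) (by decide +kernel) WQ000.q21⟩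

theorem w22 : Wx (EX1w xs7) Vale.Agent.P032X.Cert.X1b.t1 (Vale.Agent.P032.H357.SymV.n5eC 73 TF.TB) WQ000.W22 := ⟨[0, 8, 16, 24, 32, 40, 48, 816, 832, 840, 848, 856, 4, 12, 20, 28, 36, 44, 52, 60, 68, 76, 84, 92, 100, 108, 116, 124, 132, 140, 148, 156, 14024897, 14025025, 12943449, 14024961, 14024769, 3506521, 4424601, 7700505, 12943385, 3506393, 14024833, 14024705, 4424985, 7700569, 12943513, 2457817],
  Vale.Agent.P032.Lt.q_of (e' := WQ000.e22) (by decide +kernel) WQ000.q22⟩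

theorem w23 : Wx (EX1w xs7) Vale.Agent.P032X.Cert.X1b.t1 (Vale.Agent.P032.H357.SymV.n5eC 73 TF.TB) WQ001.W23 := ⟨[0, 8, 16, 24, 32, 40, 48, 816, 832, 840, 848, 856, 4, 12, 20, 28, 36, 44, 52, 60, 68, 76, 84, 92, 100, 108, 116, 124, 132, 140, 148, 156, 1737225, 2458049],
  Vale.Agent.P032.Lt.q_of (e' := WQ001.e23) (by decide +kernel) WQ001.q23⟩

theorem w24 : Wx (EX1w xs7) Vale.Agent.P032X.Cert.X1b.t1 (Vale.Agent.P032.H357.SymV.n5eC 73 TF.TB) WQ001.W24 := ⟨[0, 8, 16, 24, 32, 40, 48, 840, 848, 856, 4, 12, 20, 28, 36, 44, 52, 60, 68, 76, 84, 92, 100, 108, 116, 124, 132, 140, 148, 156, 1048577, 4428225, 11505433, 14910233, 9867417, 4394777, 4427841, 855833, 14618393, 11865881, 13798553, 6492313, 10948377, 11472665, 9375513, 5079041, 3833857, 8552449, 13697025, 2330393, 10719001, 7737113, 3280665, 12586777, 8359705, 12582913],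
  Vale.Agent.P032.Lt.q_of (e' := WQ001.e24) (by decide +kernel) WQ001.q24⟩

theorem w25 : Wx (EX1w xs7) Vale.Agent.P032X.Cert.X1b.t1 (Vale.Agent.P032.H357.SymV.n5eC 73 TF.TB) WQ001.W25 := ⟨[0, 8, 16, 24, 32, 40, 48, 136, 216, 840, 848, 856, 4, 12, 20, 28, 36, 44, 52, 60, 68, 76, 84, 92, 100, 108, 116, 124, 132, 140, 148, 8355841, 1048577, 6064769, 6754073, 6067993, 12062489, 7999257, 12058625, 12058945, 2326529, 3673881, 3674201, 15368193, 9142273, 2330393, 5898369, 11108353, 5902105, 6979585, 11112217, 10719001, 5639961, 1572993, 6295321, 4816897, 7405569, 10715137, 6750209, 12586777, 2458689],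
  Vale.Agent.P032.Lt.q_of (e' := WQ001.e25) (by decide +kernel) WQ001.q25⟩

theorem w26 : Wx (EX1w xs7) Vale.Agent.P032X.Cert.X1b.t1 (Vale.Agent.P032.H357.SymV.n5eC 73 TF.TB) WQ001.W26 := ⟨[0, 8, 16, 24, 32, 40, 48, 760, 792, 816, 832, 840, 848, 856, 4, 12, 20, 28, 36, 44, 52, 60, 68, 76, 84, 92, 100, 108, 116, 124, 132, 140, 148, 156, 164, 172, 180, 188, 196, 204, 1736705, 15564801, 4427841, 11703529, 4428225, 6094849, 14978841, 4263705, 2129921, 8945665, 2031617, 8290305, 9240577, 13303809, 13434881, 14585625],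
  Vale.Agent.P032.Lt.q_of (e' := WQ001.e26) (by decide +kernel) WQ001.q26⟩

theorem w27 : Wx (EX1w xs7) Vale.Agent.P032X.Cert.X1b.t1 (Vale.Agent.P032.H357.SymV.n5eC 73 TF.TB) WQ001.W27 := ⟨[0, 8, 16, 24, 32, 40, 48, 760, 792, 832, 840, 848, 856, 4, 12, 20, 28, 36, 44, 52, 60, 68, 76, 84, 92, 100, 108, 116, 124, 132, 140, 148, 7176193, 6258689, 14385153, 4424025, 2264857, 479001, 6819609, 11964185, 245761, 12619545, 1937177],
  Vale.Agent.P032.Lt.q_of (e' := WQ001.e27) (by decide +kernel) WQ001.q27⟩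

theorem w28 : Wx (EX1w xs7) Vale.Agent.P032X.Cert.X1b.t1 (Vale.Agent.P032.H357.SymV.n5eC 73 TF.TB) WQ001.W28 := ⟨[0, 8, 16, 24, 32, 40, 48, 816, 840, 848, 856, 4, 12, 20, 28, 36, 44, 52, 60, 68, 76, 84, 92, 100, 108, 116, 124, 132, 140, 148, 156, 12582913, 8355841, 12586777, 1052441, 8359705, 2461209, 6918041, 8654617, 6459161, 11931417, 10227481, 4424025, 6489409, 11304961, 9175041, 11108521, 269033, 2366185, 4161705, 10229009, 69401, 10715137, 2326529, 6258689],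
  Vale.Agent.P032.Lt.q_of (e' := WQ001.e28) (by decide +kernel) WQ001.q28⟩

theorem w29 : Wx (EX1w xs7) Vale.Agent.P032X.Cert.X1b.t1 (Vale.Agent.P032.H357.SymV.n5eC 73 TF.TB) WQ001.W29 := ⟨[0, 8, 16, 24, 32, 40, 48, 184, 208, 216, 840, 848, 856, 4, 12, 20, 28, 36, 44, 52, 60, 68, 76, 84, 92, 100, 108, 116, 124, 132, 140, 148, 156, 164, 4427841, 8355841, 12586777, 14910233, 691993, 2460257, 1740745, 8650753, 6750209, 11927553, 10092545, 10223617, 6455681, 2723609, 13729793, 7049113, 2459937, 4426441, 11702041, 3670337, 6983449, 4456577, 11112217, 269465, 7311129, 2228225, 5345049, 2330393, 12058945, 1710657, 10719001, 12754073, 8225561, 5017689, 1572993, 15372057],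
  Vale.Agent.P032.Lt.q_of (e' := WQ001.e29) (by decide +kernel) WQ001.q29⟩

theorem w30 : Wx (EX1w xs7) Vale.Agent.P032X.Cert.X1b.t1 (Vale.Agent.P032.H357.SymV.n5eC 73 TF.TB) WQ001.W30 := ⟨[0, 8, 16, 24, 32, 40, 48, 136, 176, 760, 832, 840, 848, 856, 4, 12, 20, 28, 36, 44, 52, 60, 68, 76, 84, 92, 100, 108, 116, 124, 132, 140, 148, 156, 164, 8355841, 5474841, 7868697, 2723609, 11698177, 13729793, 691993, 7049113, 11702041, 13733657, 1740745, 688129, 4820761, 7045249, 5345049, 8260577, 3808409, 5017689, 2326529, 2330393, 5475865],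
  Vale.Agent.P032.Lt.q_of (e' := WQ001.e30) (by decide +kernel) WQ001.q30⟩

theorem w31 : Wx (EX1w xs7) Vale.Agent.P032X.Cert.X1b.t1 (Vale.Agent.P032.H357.SymV.n5eC 73 TF.TB) WQ001.W31 := ⟨[0, 8, 16, 24, 32, 40, 48, 832, 840, 848, 856, 4, 12, 20, 28, 36, 44, 52, 60, 68, 76, 84, 92, 100, 108, 116, 124, 132, 140, 148, 156, 164, 172, 180, 188, 2264857, 14912897, 11501697, 4424921, 6918041, 8654617, 10161945, 10096409, 6586433, 15372057, 1572865, 2330393, 10719001, 12582913, 4424025, 15961881, 13930265, 3899393],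
  Vale.Agent.P032.Lt.q_of (e' := WQ001.e31) (by decide +kernel) WQ001.q31⟩

theorem w32 : Wx (EX1w xs7) Vale.Agent.P032X.Cert.X1b.t1 (Vale.Agent.P032.H357.SymV.n5eC 73 TF.TB) WQ001.W32 := ⟨[0, 8, 16, 24, 32, 40, 48, 792, 832, 840, 848, 856, 4, 12, 20, 28, 36, 44, 52, 60, 68, 76, 84, 92, 100, 108, 116, 124, 132, 140, 148, 156, 164, 172, 180, 2459937, 2460257, 8650753, 11927553, 10092545, 6455297, 10223617, 13729793, 7049113, 11702041, 9208857, 4426441, 11112217, 269465, 7311129, 6983449, 5345049, 2330393, 2723609, 12754073, 3313433, 8225561, 8260577, 691993, 5017689],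
  Vale.Agent.P032.Lt.q_of (e' := WQ001.e32) (by decide +kernel) WQ001.q32⟩

theorem w33 : Wx (EX1w xs7) Vale.Agent.P032X.Cert.X1b.t1 (Vale.Agent.P032.H357.SymV.n5eC 73 TF.TB) WQ001.W33 := ⟨[0, 8, 16, 24, 32, 40, 48, 816, 832, 840, 848, 856, 4, 12, 20, 28, 36, 44, 52, 60, 68, 76, 84, 92, 100, 108, 116, 124, 132, 140, 148, 156, 164, 7176193, 2264857, 15568665, 2458561, 14385153, 9994241, 4161537, 8097561, 4620353, 12619545, 7245593, 1937177],
  Vale.Agent.P032.Lt.q_of (e' := WQ001.e33) (by decide +kernel) WQ001.q33⟩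

theorem w34 : Wx (EX1w xs7) Vale.Agent.P032X.Cert.X1b.t1 (Vale.Agent.P032.H357.SymV.n5eC 73 TF.TB) WQ001.W34 := ⟨[0, 8, 16, 24, 32, 40, 48, 120, 160, 176, 216, 792, 840, 848, 856, 4, 12, 20, 28, 36, 44, 52, 60, 68, 76, 84, 92, 100, 108, 116, 124, 132, 140, 148, 156, 164, 172, 5963777, 1052441, 6064769, 6066905, 5639961, 11112217, 13209369, 10719001, 11108353, 10715137, 14942209, 13405977, 6983449, 1711257, 10620697, 12753473, 268865, 2326529, 5902233, 7999257, 8785689, 1703937, 1048577, 6754073],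
  Vale.Agent.P032.Lt.q_of (e' := WQ001.e34) (by decide +kernel) WQ001.q34⟩

theorem w35 : Wx (EX1w xs7) Vale.Agent.P032X.Cert.X1b.t1 (Vale.Agent.P032.H357.SymV.n5eC 73 TF.TB) WQ001.W35 := ⟨[0, 8, 16, 24, 32, 40, 48, 216, 840, 848, 856, 4, 12, 20, 28, 36, 44, 52, 60, 68, 76, 84, 92, 100, 108, 116, 124, 132, 140, 148, 156, 164, 172, 180, 8355841, 4427841, 1740569, 4424025, 14811137, 4259841, 16285697, 14815001, 4263705, 11439897, 16289561, 12652313, 294913, 16158489, 10358553],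
  Vale.Agent.P032.Lt.q_of (e' := WQ001.e35) (by decide +kernel) WQ001.q35⟩

theorem w36 : Wx (EX1w xs7) Vale.Agent.P032X.Cert.X1b.t1 (Vale.Agent.P032.H357.SymV.n5eC 73 TF.TB) WQ001.W36 := ⟨[0, 8, 16, 24, 32, 40, 48, 224, 760, 840, 848, 856, 4, 12, 20, 28, 36, 44, 52, 60, 68, 76, 84, 92, 100, 108, 116, 124, 132, 140, 148, 156, 164, 172, 180, 2266393, 4427841, 8355841, 9211849, 2461473, 2458689, 5479705, 2458369, 7114521, 4424025, 6524609, 6525249, 14057473, 7438337, 13631489, 8454145, 6064065, 6754073, 14910233, 11472665, 15826945, 6914049, 13008897, 4755225, 5869337, 2523137, 12160793, 15892481, 5377817, 2392065, 4653057, 7770009, 2330393, 10719001, 6067993, 7868313, 1572865, 15372057, 11112217, 13209369, 3670337, 11108353, 2326529, 10715137, 2366617, 13405977, 4820761, 3670017, 7999257, 8785689, 1703937, 5636097, 8650753, 11927553, 6455681, 10223617, 2264857],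
  Vale.Agent.P032.Lt.q_of (e' := WQ001.e36) (by decide +kernel) WQ001.q36⟩

theorem w37 : Wx (EX1w xs7) Vale.Agent.P032X.Cert.X1b.t1 (Vale.Agent.P032.H357.SymV.n5eC 73 TF.TB) WQ001.W37 := ⟨[0, 8, 16, 24, 32, 40, 48, 832, 840, 848, 856, 4, 12, 20, 28, 36, 44, 52, 60, 68, 76, 84, 92, 100, 108, 116, 124, 132, 140, 148, 156, 2461209, 5473921, 16023849, 5477185],
  Vale.Agent.P032.Lt.q_of (e' := WQ001.e37) (by decide +kernel) WQ001.q37⟩

theorem w38 : Wx (EX1w xs7) Vale.Agent.P032X.Cert.X1b.t1 (Vale.Agent.P032.H357.SymV.n5eC 73 TF.TB) WQ001.W38 := ⟨[0, 8, 16, 24, 32, 40, 48, 840, 848, 856, 4, 12, 20, 28, 36, 44, 52, 60, 68, 76, 84, 92, 100, 108, 2097153],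
  Vale.Agent.P032.Lt.q_of (e' := WQ001.e38) (by decide +kernel) WQ001.q38⟩

theorem w39 : Wx (EX1w xs7) Vale.Agent.P032X.Cert.X1b.t1 (Vale.Agent.P032.H357.SymV.n5eC 73 TF.TB) WQ001.W39 := ⟨[0, 8, 16, 24, 32, 40, 48, 792, 840, 848, 856, 4, 12, 20, 28, 36, 44, 52, 60, 68, 76, 84, 92, 100, 108, 116, 124, 132, 140, 148, 156, 164, 172, 180, 188, 196, 204, 4424025, 2264857, 4424921, 9863169, 5406721, 9601025, 5210113, 15961881, 6064769, 7831553, 10161945, 8654617, 6754073, 11698177, 7045249, 13733657, 14912897, 8982297, 10981273, 3309569, 8523545, 5705497, 12753473, 268865, 14942209, 14946073],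
  Vale.Agent.P032.Lt.q_of (e' := WQ001.e39) (by decide +kernel) WQ001.q39⟩

theorem w40 : Wx (EX1w xs7) Vale.Agent.P032X.Cert.X1b.t1 (Vale.Agent.P032.H357.SymV.n5eC 73 TF.TB) WQ001.W40 := ⟨[0, 8, 16, 24, 32, 40, 48, 792, 832, 840, 848, 856, 4, 12, 20, 28, 36, 44, 52, 60, 68, 76, 84, 92, 100, 108, 116, 124, 132, 140, 148, 156, 164, 5439489, 1052121, 10682369, 13274521, 7966105, 5475993, 4358209, 5246425, 5475865, 1015873, 4427841, 4425113, 13274585, 1052057, 10682433, 5439553, 7966169, 4358145, 3214937, 4428225, 5246361, 5242945, 1015809, 5242881],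
  Vale.Agent.P032.Lt.q_of (e' := WQ001.e40) (by decide +kernel) WQ001.q40⟩

theorem w41 : Wx (EX1w xs7) Vale.Agent.P032X.Cert.X1b.t1 (Vale.Agent.P032.H357.SymV.n5eC 73 TF.TB) WQ001.W41 := ⟨[0, 8, 16, 24, 32, 40, 48, 832, 840, 848, 856, 4, 12, 20, 28, 36, 44, 52, 60, 68, 76, 84, 92, 100, 108, 116, 124, 132, 140, 148, 156, 164, 4424729, 4425113, 7569473, 8916377, 6069441, 5477569, 4784193, 11763713, 5242881, 7569409, 11763777, 6068033, 8916441, 4784129, 5242945],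
  Vale.Agent.P032.Lt.q_of (e' := WQ001.e41) (by decide +kernel) WQ001.q41⟩

theorem w42 : Wx (EX1w xs7) Vale.Agent.P032X.Cert.X1b.t1 (Vale.Agent.P032.H357.SymV.n5eC 73 TF.TB) WQ001.W42 := ⟨[0, 8, 16, 24, 32, 40, 48, 840, 848, 856, 4, 12, 20, 28, 36, 44, 52, 60, 68, 76, 84, 92, 100, 108, 116, 124, 132, 140, 148, 156, 164, 691993, 9506585, 15568665, 4424025, 14978841, 8359705],
  Vale.Agent.P032.Lt.q_of (e' := WQ001.e42) (by decide +kernel) WQ001.q42⟩

theorem w43 : Wx (EX1w xs7) Vale.Agent.P032X.Cert.X1b.t1 (Vale.Agent.P032.H357.SymV.n5eC 73 TF.TB) WQ001.W43 := ⟨[0, 8, 16, 24, 32, 40, 48, 128, 792, 840, 848, 856, 4, 12, 20, 28, 36, 44, 52, 60, 68, 76, 84, 92, 100, 108, 116, 124, 132, 140, 148, 156, 5477185, 5473921, 4424025, 2264857, 9863169, 688129, 13733657, 11702041, 7045249, 13729793, 11698177, 5341185, 691993, 7049113, 5701633, 2719745, 14946073, 13409433, 3808537, 2326529, 4427841, 2260993, 6127617],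
  Vale.Agent.P032.Lt.q_of (e' := WQ001.e43) (by decide +kernel) WQ001.q43⟩

theorem w44 : Wx (EX1w xs7) Vale.Agent.P032X.Cert.X1b.t1 (Vale.Agent.P032.H357.SymV.n5eC 73 TF.TB) WQ001.W44 := ⟨[0, 8, 16, 24, 32, 40, 48, 224, 840, 848, 856, 4, 12, 20, 28, 36, 44, 52, 60, 68, 76, 84, 92, 100, 108, 116, 124, 132, 140, 148, 156, 164, 172, 180, 11439897, 2002713, 1740569, 4424025, 8355841, 4427841, 4428225, 12877825, 14811137, 4259841, 2330393, 14815001, 16285697, 4263705, 10719001, 12648449, 16289561, 14581761, 16158617, 10354689, 2166553, 2264857],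
  Vale.Agent.P032.Lt.q_of (e' := WQ001.e44) (by decide +kernel) WQ001.q44⟩

theorem w45 : Wx (EX1w xs7) Vale.Agent.P032X.Cert.X1b.t1 (Vale.Agent.P032.H357.SymV.n5eC 73 TF.TB) WQ001.W45 := ⟨[0, 8, 16, 24, 32, 40, 48, 760, 832, 840, 848, 856, 4, 12, 20, 28, 36, 44, 52, 60, 68, 76, 84, 92, 100, 108, 116, 124, 132, 140, 148, 156, 10682369, 10682433, 6069569, 5477529, 11763713, 2493825, 4424729, 4425113, 7569473],
  Vale.Agent.P032.Lt.q_of (e' := WQ001.e45) (by decide +kernel) WQ001.q45⟩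

theorem w46 : Wx (EX1w xs7) Vale.Agent.P032X.Cert.X1b.t1 (Vale.Agent.P032.H357.SymV.n5eC 73 TF.TB) WQ002.W46 := ⟨[0, 8, 16, 24, 32, 40, 48, 832, 840, 848, 856, 4, 12, 20, 28, 36, 44, 52, 60, 68, 76, 84, 92, 100, 108, 116, 124, 132, 140, 5242881, 5246425, 11603353, 5477185, 1048641, 5475993, 11599873, 7962625, 5242945, 5478721, 14486241, 14485345, 1048577, 11599937, 5474329, 7962689],
  Vale.Agent.P032.Lt.q_of (e' := WQ002.e46) (by decide +kernel) WQ002.q46⟩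

theorem w47 : Wx (EX1w xs7) Vale.Agent.P032X.Cert.X1b.t1 (Vale.Agent.P032.H357.SymV.n5eC 73 TF.TB) WQ002.W47 := ⟨[0, 8, 16, 24, 32, 40, 48, 840, 848, 856, 4, 12, 20, 28, 36, 44, 52, 60, 68, 76, 84, 92, 100, 108, 116, 124, 132, 12582913, 8359705, 15437593, 9539353, 7180057, 2592537, 11173889, 3637249, 442369, 2326529, 10715137, 2260993, 2264857],
  Vale.Agent.P032.Lt.q_of (e' := WQ002.e47) (by decide +kernel) WQ002.q47⟩

theorem w48 : Wx (EX1w xs7) Vale.Agent.P032X.Cert.X1b.t1 (Vale.Agent.P032.H357.SymV.n5eC 73 TF.TB) WQ002.W48 := ⟨[0, 8, 16, 24, 32, 40, 48, 208, 816, 840, 848, 856, 4, 12, 20, 28, 36, 44, 52, 60, 68, 76, 84, 92, 100, 108, 116, 124, 132, 140, 148, 156, 164, 172, 13799321, 4427841, 2260993, 8355841, 4428225, 12582913, 3903257, 5279513, 15958017, 3571713, 8749057, 1933313, 7798785, 1671169, 9867417, 11505433, 6914049, 12222465, 15011609, 6492313, 3833857, 4358145, 1376257, 13500417, 6590297, 10715137,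 8650753, 10158081, 10092545, 2326529, 15368193, 1576857, 12226329, 9506585, 5079041, 7376665, 16089089, 6651905, 3047425, 3084057, 9273345, 12156929, 720897, 9375513, 2330393, 917505, 7769881, 7474969, 1773337, 8064793, 11996953, 2523137, 10719001, 7278361, 11730945, 12451841, 9277209, 12521241, 131073, 954265, 6750209, 1048577],
  Vale.Agent.P032.Lt.q_of (e' := WQ002.e48) (by decide +kernel) WQ002.q48⟩

theorem w49 : Wx (EX1w xs7) Vale.Agent.P032X.Cert.X1b.t1 (Vale.Agent.P032.H357.SymV.n5eC 73 TF.TB) WQ002.W49 := ⟨[0, 8, 16, 24, 32, 40, 48, 816, 832, 840, 848, 856, 4, 12, 20, 28, 36, 44, 52, 60, 68, 76, 84, 92, 100, 108, 5246425, 363929],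
  Vale.Agent.P032.Lt.q_of (e' := WQ002.e49) (by decide +kernel) WQ002.q49⟩

theorem w50 : Wx (EX1w xs7) Vale.Agent.P032X.Cert.X1b.t1 (Vale.Agent.P032.H357.SymV.n5eC 73 TF.TB) WQ002.W50 := ⟨[0, 8, 16, 24, 32, 40, 48, 840, 848, 856, 4, 12, 20, 28, 36, 44, 52, 60, 68, 76, 84, 92, 100, 108, 116, 124, 132, 140, 148, 156, 164, 172, 180, 13697025, 1740569, 8355841, 4424025, 14847769, 14123009, 4424921, 12582913, 9015065, 3247897, 16158489, 11439897, 3280665, 10256385, 4259841, 12648449, 14811137, 10354689, 11436033, 13700889, 3411737, 4620289],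
  Vale.Agent.P032.Lt.q_of (e' := WQ002.e50) (by decide +kernel) WQ002.q50⟩

theorem w51 : Wx (EX1w xs7) Vale.Agent.P032X.Cert.X1b.t1 (Vale.Agent.P032.H357.SymV.n5eC 73 TF.TB) WQ002.W51 := ⟨[0, 8, 16, 24, 32, 40, 48, 792, 816, 832, 840, 848, 856, 4, 12, 20, 28, 36, 44, 52, 60, 68, 76, 84, 92, 100, 108, 116, 124, 132, 140, 148, 156, 164, 6262553, 8355841, 4165401, 6094849, 13631489, 2949121, 16158489, 10256385, 14811137, 10715137, 5479449, 9502721, 13862529],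
  Vale.Agent.P032.Lt.q_of (e' := WQ002.e51) (by decide +kernel) WQ002.q51⟩

theorem w52 : Wx (EX1w xs7) Vale.Agent.P032X.Cert.X1b.t1 (Vale.Agent.P032.H357.SymV.n5eC 73 TF.TB) WQ002.W52 := ⟨[0, 8, 16, 24, 32, 40, 48, 840, 848, 856, 4, 12, 20, 28, 36, 44, 52, 60, 68, 76, 84, 92, 100, 108, 116, 124, 132, 140, 148, 14188545, 12582913, 12586777, 2458689, 6262553, 2458369, 4428225, 10977409, 6094849, 6754073, 11505561, 1052441, 4165401, 6066905, 8650753, 11927553, 15794177, 10092545, 269465, 11112217, 3670337, 2068249, 2363161, 5902233, 2366617, 2326529, 12058945, 10715137, 5636097, 3116825],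
  Vale.Agent.P032.Lt.q_of (e' := WQ002.e52) (by decide +kernel) WQ002.q52⟩

theorem w53 : Wx (EX1w xs7) Vale.Agent.P032X.Cert.X1b.t1 (Vale.Agent.P032.H357.SymV.n5eC 73 TF.TB) WQ002.W53 := ⟨[0, 8, 16, 24, 32, 40, 48, 816, 832, 840, 848, 856, 4, 12, 20, 28, 36, 44, 52, 60, 68, 76, 84, 92, 100, 108, 116, 4427841, 4428225, 9604889, 1740569, 1736705, 9666753, 9672153, 13598721, 12586777, 15109913, 9961473],
  Vale.Agent.P032.Lt.q_of (e' := WQ002.e53) (by decide +kernel) WQ002.q53⟩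

theorem w54 : Wx (EX1w xs7) Vale.Agent.P032X.Cert.X1b.t1 (Vale.Agent.P032.H357.SymV.n5eC 73 TF.TB) WQ002.W54 := ⟨[0, 8, 16, 24, 32, 40, 48, 120, 816, 840, 848, 856, 4, 12, 20, 28, 36, 44, 52, 60, 68, 76, 84, 92, 100, 108, 116, 124, 132, 140, 148, 156, 164, 172, 180, 188, 10161945, 7831553, 6065089, 8654617, 1052441, 7045249, 13733657, 4424025, 11698177, 6917913, 2232089, 2719745, 3309569, 10715137, 12753473, 268865, 8978433, 14942209, 2326529, 4460441, 14946073, 8982297, 8523545, 4424921, 7864449, 2264857, 9863169, 5406721, 9601025, 15961881, 12582913, 1998849, 14913025, 5705497],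
  Vale.Agent.P032.Lt.q_of (e' := WQ002.e54) (by decide +kernel) WQ002.q54⟩

theorem w55 : Wx (EX1w xs7) Vale.Agent.P032X.Cert.X1b.t1 (Vale.Agent.P032.H357.SymV.n5eC 73 TF.TB) WQ002.W55 := ⟨[0, 8, 16, 24, 32, 40, 48, 88, 832, 840, 848, 856, 4, 12, 20, 28, 36, 44, 52, 60, 68, 76, 84, 92, 100, 108, 116, 124, 132, 140, 148, 9798041, 16253401, 9212969, 5603329, 15040513, 10879385, 2982145, 2982553, 4424577, 6684673, 10878977, 1442201, 9797633, 13860865, 1278361, 1277953, 10851081, 7700633, 3506881, 15040921, 5474753, 2916353, 7700761, 3506393, 15040985, 5476057, 4424961, 4424321, 2916417, 15040577, 9666625, 5473793, 10879041, 2982297],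
  Vale.Agent.P032.Lt.q_of (e' := WQ002.e55) (by decide +kernel) WQ002.q55⟩

theorem w56 : Wx (EX1w xs7) Vale.Agent.P032X.Cert.X1b.t1 (Vale.Agent.P032.H357.SymV.n5eC 73 TF.TB) WQ002.W56 := ⟨[0, 8, 16, 24, 32, 40, 48, 176, 840, 848, 856, 4, 12, 20, 28, 36, 44, 52, 60, 68, 76, 84, 92, 100, 108, 116, 124, 132, 140, 148, 12586777, 12582913, 4428225, 11505433, 14910233, 6914177, 2458369, 6262553, 5479705, 12025857, 6524481, 6524865, 12128025, 9080601, 15666969, 8650753, 11927553, 15794177, 10092545, 11112217, 5902105, 3670337, 2068249, 6455681, 2363161, 2326529, 12058945, 1576729, 15368193, 10715137],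
  Vale.Agent.P032.Lt.q_of (e' := WQ002.e56) (by decide +kernel) WQ002.q56⟩

theorem w57 : Wx (EX1w xs7) Vale.Agent.P032X.Cert.X1b.t1 (Vale.Agent.P032.H357.SymV.n5eC 73 TF.TB) WQ002.W57 := ⟨[0, 8, 16, 24, 32, 40, 48, 88, 832, 840, 848, 856, 4, 12, 20, 28, 36, 44, 52, 60, 68, 76, 84, 92, 100, 108, 116, 124, 132, 140, 6064833, 5603737, 9797633, 10878977, 2982553, 15040921, 1442113, 4424473, 6685081, 13864345, 1277953, 5477441, 10879385, 2981953, 1278361, 10851177],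
  Vale.Agent.P032.Lt.q_of (e' := WQ002.e57) (by decide +kernel) WQ002.q57⟩

theorem w58 : Wx (EX1w xs7) Vale.Agent.P032X.Cert.X1b.t1 (Vale.Agent.P032.H357.SymV.n5eC 73 TF.TB) WQ002.W58 := ⟨[0, 8, 16, 24, 32, 40, 48, 840, 848, 856, 4, 12, 20, 28, 36, 44, 52, 60, 68, 76, 84, 92, 100, 108, 116, 124, 132, 140, 148, 156, 164, 172, 180, 1740569, 4427841, 8355841, 2461337, 14974977, 14126873, 4428225, 4424025, 12877825, 16285697, 2330393, 12648449, 5308417, 4030465, 294913, 8814657, 10719001, 10715137, 2326529, 10354689, 15990785, 10391321, 14254081],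
  Vale.Agent.P032.Lt.q_of (e' := WQ002.e58) (by decide +kernel) WQ002.q58⟩

theorem w59 : Wx (EX1w xs7) Vale.Agent.P032X.Cert.X1b.t1 (Vale.Agent.P032.H357.SymV.n5eC 73 TF.TB) WQ002.W59 := ⟨[0, 8, 16, 24, 32, 40, 48, 72, 80, 136, 760, 792, 832, 840, 848, 856, 4, 12, 20, 28, 36, 44, 52, 60, 68, 76, 84, 92, 100, 108, 116, 124, 132, 140, 148, 156, 15040513, 6064833, 9797633, 7864729, 6066393, 9798041, 7700633, 15040921, 4424473, 7700993, 3506521, 5472473, 6684673, 3965185, 13860865, 1278361, 2916353, 4424577, 9668097, 7864385, 7864321, 7864793, 6685081, 1277953, 13862425, 3965593, 2981953, 2916761, 16252993, 16253337, 15040577, 9798105, 7700761, 15040985, 4424857, 4424961, 3506393, 5476057, 4423961, 13861313, 1278425, 3965057, 2916417, 9666625, 13862873, 6685145, 5472665, 1278017, 2916825, 3965465, 6684737, 16253401],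
  Vale.Agent.P032.Lt.q_of (e' := WQ002.e59) (by decide +kernel) WQ002.q59⟩

theorem w60 : Wx (EX1w xs7) Vale.Agent.P032X.Cert.X1b.t1 (Vale.Agent.P032.H357.SymV.n5eC 73 TF.TB) WQ002.W60 := ⟨[0, 8, 16, 24, 32, 40, 48, 832, 840, 848, 856, 4, 12, 20, 28, 36, 44, 52, 60, 68, 76, 84, 92, 100, 108, 116, 124, 132, 140, 148, 156, 164, 172, 180, 188, 196, 15040513, 4424577, 6684673, 15040577, 4424961, 6684737],
  Vale.Agent.P032.Lt.q_of (e' := WQ002.e60) (by decide +kernel) WQ002.q60⟩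

theorem w61 : Wx (EX1w xs7) Vale.Agent.P032X.Cert.X1b.t1 (Vale.Agent.P032.H357.SymV.n5eC 73 TF.TB) WQ002.W61 := ⟨[0, 8, 16, 24, 32, 40, 48, 144, 816, 832, 840, 848, 856, 4, 12, 20, 28, 36, 44, 52, 60, 68, 76, 84, 92, 100, 108, 116, 124, 132, 3506497, 3506177, 4425089, 7700673, 3506369, 3506241, 4424705, 7700801, 3506433, 3506305, 4424961, 7700545, 3506393, 14024705, 4424985, 4424321, 7700737, 7700569, 14155865, 4424193, 7700609, 14024769, 7700505, 14155801, 3506521, 5474009, 7700481],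
  Vale.Agent.P032.Lt.q_of (e' := WQ002.e61) (by decide +kernel) WQ002.q61⟩

theorem w62 : Wx (EX1w xs7) Vale.Agent.P032X.Cert.X1b.t1 (Vale.Agent.P032.H357.SymV.n5eC 73 TF.TB) WQ002.W62 := ⟨[0, 8, 16, 24, 32, 40, 48, 168, 184, 224, 792, 832, 840, 848, 856, 4, 12, 20, 28, 36, 44, 52, 60, 68, 76, 84, 92, 100, 108, 116, 124, 132, 140, 148, 156, 164, 172, 5701761, 5478169, 4456449, 15794177, 11108353, 12816153, 8259105, 2228225, 5013505, 10715137, 2326529, 2232089, 11112217, 4460313, 7638809, 10719001, 2330393, 5902233, 14489169, 1052505, 1052441],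
  Vale.Agent.P032.Lt.q_of (e' := WQ002.e62) (by decide +kernel) WQ002.q62⟩

theorem w63 : Wx (EX1w xs7) Vale.Agent.P032X.Cert.X1b.t1 (Vale.Agent.P032.H357.SymV.n5eC 73 TF.TB) WQ002.W63 := ⟨[0, 8, 16, 24, 32, 40, 48, 840, 848, 856, 4, 12, 20, 28, 36, 44, 52, 60, 68, 76, 84, 92, 100, 108, 116, 124, 132, 140, 11501569, 7114521, 2264857, 10911745, 6819609, 13930265, 8880129, 4620289, 5148441, 16158617],
  Vale.Agent.P032.Lt.q_of (e' := WQ002.e63) (by decide +kernel) WQ002.q63⟩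

theorem w64 : Wx (EX1w xs7) Vale.Agent.P032X.Cert.X1b.t1 (Vale.Agent.P032.H357.SymV.n5eC 73 TF.TB) WQ002.W64 := ⟨[0, 8, 16, 24, 32, 40, 48, 224, 792, 840, 848, 856, 4, 12, 20, 28, 36, 44, 52, 60, 68, 76, 84, 92, 100, 108, 116, 124, 132, 140, 148, 156, 164, 172, 180, 188, 5472513, 2463633, 5734401, 4427841, 2260993, 2232089, 4456449, 2228225, 11112217, 4460441, 2330393, 10719001, 5013505, 15798041, 5902105, 6295321, 7638809, 11108353, 5898241, 10715137, 2326529, 8262929, 7999257, 8259105, 5017369],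
  Vale.Agent.P032.Lt.q_of (e' := WQ002.e64) (by decide +kernel) WQ002.q64⟩

theorem w65 : Wx (EX1w xs7) Vale.Agent.P032X.Cert.X1b.t1 (Vale.Agent.P032.H357.SymV.n5eC 73 TF.TB) WQ003.W65 := ⟨[0, 8, 16, 24, 32, 40, 48, 224, 760, 792, 816, 832, 840, 848, 856, 4, 12, 20, 28, 36, 44, 52, 60, 68, 76, 84, 92, 100, 108, 116, 124, 132, 140, 148, 156, 4424921, 15273753, 14057473, 16224025, 5079041, 14618393, 3084057, 2326529, 9273345, 8425241, 10030873, 13700889, 10715137, 14585625, 3411737, 13697025, 10256385, 14811137, 10719001, 2330393, 7933721, 560921, 6193153, 5144577, 14352385, 16158617, 15630337],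
  Vale.Agent.P032.Lt.q_of (e' := WQ003.e65) (by decide +kernel) WQ003.q65⟩

theorem w66 : Wx (EX1w xs7) Vale.Agent.P032X.Cert.X1b.t1 (Vale.Agent.P032.H357.SymV.n5eC 73 TF.TB) WQ003.W66 := ⟨[0, 8, 16, 24, 32, 40, 48, 840, 848, 856, 4, 12, 20, 28, 36, 44, 52, 60, 68, 76, 84, 92, 100, 108, 116, 124, 132, 140, 2458689, 12586777, 8355841, 6064065, 1048577, 6754073, 6750209, 6068121, 11108353, 5898369, 7995393, 5902105, 12058625, 12058945, 6979585, 9142273, 15368193, 3674201, 3670337, 11112217, 9146137, 6983449, 15372057, 2330393, 6291457, 10719001, 2326529, 10715137, 5636097],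
  Vale.Agent.P032.Lt.q_of (e' := WQ003.e66) (by decide +kernel) WQ003.q66⟩

theorem w67 : Wx (EX1w xs7) Vale.Agent.P032X.Cert.X1b.t1 (Vale.Agent.P032.H357.SymV.n5eC 73 TF.TB) WQ003.W67 := ⟨[0, 8, 16, 24, 32, 40, 48, 208, 216, 224, 400, 816, 840, 848, 856, 4, 12, 20, 28, 36, 44, 52, 60, 68, 76, 84, 92, 100, 108, 116, 124, 132, 140, 148, 156, 164, 172, 180, 4424025, 1740569, 13008897, 2458689, 2264857, 6064769, 4428225, 4424921, 11927553, 8650753, 1740681, 2459937, 2458369, 4426441, 6068121, 10223617, 12754073, 6455681, 269465, 3116825, 4427841, 11112329, 14257945, 8652321, 269577, 5902217, 11929121, 10094113, 10225185, 13373209, 15994649, 4984601, 10719001, 2330393, 13111065, 11308825, 790297, 12390169, 2821913, 11374361, 11800345, 7606041, 11112217, 12058625, 14453729, 3670337, 7999257, 13897497, 5898369, 12058945, 3670017, 5636097, 11108353, 2326529, 10715137, 4820761, 7409433, 5902233, 1703937, 12812289, 1572993,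 6983449, 6291457, 1711257, 2232089, 4460313, 2228225, 5639961, 7311129, 8355841, 12582913, 1052441, 6754073],
  Vale.Agent.P032.Lt.q_of (e' := WQ003.e67) (by decide +kernel) WQ003.q67⟩

theorem w68 : Wx (EX1w xs7) Vale.Agent.P032X.Cert.X1b.t1 (Vale.Agent.P032.H357.SymV.n5eC 73 TF.TB) WQ003.W68 := ⟨[0, 8, 16, 24, 32, 40, 48, 168, 760, 840, 848, 856, 4, 12, 20, 28, 36, 44, 52, 60, 68, 76, 84, 92, 100, 108, 116, 124, 132, 140, 148, 156, 164, 11501569, 1052441, 7868313, 14913025, 6586433, 4424921, 6098713, 4161537, 6918041, 8654617, 2326529, 3112961, 15372057, 8392473, 11538201, 10096409, 10719001, 2330393, 10981145, 2264857, 4424025, 5738265, 10911745, 10452993, 983041, 13930265, 102169, 4521985, 1150745, 8490777, 5476249],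
  Vale.Agent.P032.Lt.q_of (e' := WQ003.e68) (by decide +kernel) WQ003.q68⟩

theorem w69 : Wx (EX1w xs7) Vale.Agent.P032X.Cert.X1b.t1 (Vale.Agent.P032.H357.SymV.n5eC 73 TF.TB) WQ003.W69 := ⟨[0, 8, 16, 24, 32, 40, 48, 168, 840, 848, 856, 4, 12, 20, 28, 36, 44, 52, 60, 68, 76, 84, 92, 100, 108, 116, 124, 132, 140, 148, 156, 164, 172, 180, 11501697, 4424025, 2264857, 15961881, 6917913, 14912897, 4424921, 3899393, 13930265, 8654617, 10161945, 2366617, 10096409, 6586433, 15798041, 2330393, 15372057, 10719001, 12582913],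
  Vale.Agent.P032.Lt.q_of (e' := WQ003.e69) (by decide +kernel) WQ003.q69⟩

theorem w70 : Wx (EX1w xs7) Vale.Agent.P032X.Cert.X1b.t1 (Vale.Agent.P032.H357.SymV.n5eC 73 TF.TB) WQ003.W70 := ⟨[0, 8, 16, 24, 32, 40, 48, 760, 792, 840, 848, 856, 4, 12, 20, 28, 36, 44, 52, 60, 68, 76, 84, 92, 100, 108, 116, 124, 132, 140, 148, 156, 164, 172, 180, 2264857, 4424921, 5050137, 8425241, 15142681, 11865881, 14811137, 16224025, 7737113, 10719001, 2330393, 16154625],
  Vale.Agent.P032.Lt.q_of (e' := WQ003.e70) (by decide +kernel) WQ003.q70⟩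

theorem w71 : Wx (EX1w xs7) Vale.Agent.P032X.Cert.X1b.t1 (Vale.Agent.P032.H357.SymV.n5eC 73 TF.TB) WQ003.W71 := ⟨[0, 8, 16, 24, 32, 40, 48, 160, 840, 848, 856, 4, 12, 20, 28, 36, 44, 52, 60, 68, 76, 84, 92, 100, 108, 116, 124, 132, 140, 148, 156, 12586777, 11505561, 13729793, 1572993, 15372057, 10719001, 2330393, 7049113, 12062809, 3670337, 2359297, 4428225, 14910233, 6066777, 6983449, 269465, 11112217, 7311129, 3674201, 12062489, 12058945, 2326529, 3673881, 12754073, 6914049, 6750209, 6455297, 8650753, 11927553, 10092545, 5902233, 2068249, 2363161, 1576729, 15368193, 10715137, 2458369, 6262553, 2260993, 15666969, 4886297, 14651161, 9080601, 16322329, 4558617, 10063641, 3018521, 7180057],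
  Vale.Agent.P032.Lt.q_of (e' := WQ003.e71) (by decide +kernel) WQ003.q71⟩

theorem w72 : Wx (EX1w xs7) Vale.Agent.P032X.Cert.X1b.t1 (Vale.Agent.P032.H357.SymV.n5eC 73 TF.TB) WQ003.W72 := ⟨[0, 8, 16, 24, 32, 40, 48, 792, 840, 848, 856, 4, 12, 20, 28, 36, 44, 52, 60, 68, 76, 84, 92, 100, 108, 116, 124, 132, 140, 148, 156, 12586777, 8355841, 4427841, 8359705, 15273753, 6750209, 13799321, 2458433, 9867417, 8552449, 5079041, 13631489, 4428225, 3833857, 4620289, 2330393, 10719001, 7933721, 16158489, 10256385, 10715137, 14811137],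
  Vale.Agent.P032.Lt.q_of (e' := WQ003.e72) (by decide +kernel) WQ003.q72⟩

theorem w73 : Wx (EX1w xs7) Vale.Agent.P032X.Cert.X1b.t1 (Vale.Agent.P032.H357.SymV.n5eC 73 TF.TB) WQ003.W73 := ⟨[0, 8, 16, 24, 32, 40, 48, 792, 840, 848, 856, 4, 12, 20, 28, 36, 44, 52, 60, 68, 76, 84, 92, 100, 108, 116, 124, 132, 140, 148, 156, 164, 172, 180, 4259841, 2002713, 14811137, 16285697, 11439897, 6127617, 1867777, 14123009, 14815001, 10719001, 2330393, 1605633, 12484609, 16289561, 298777, 16154753, 11636505, 2260993, 2264857],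
  Vale.Agent.P032.Lt.q_of (e' := WQ003.e73) (by decide +kernel) WQ003.q73⟩

theorem w74 : Wx (EX1w xs7) Vale.Agent.P032X.Cert.X1b.t1 (Vale.Agent.P032.H357.SymV.n5eC 73 TF.TB) WQ003.W74 := ⟨[0, 8, 16, 24, 32, 40, 48, 840, 848, 856, 4, 12, 20, 28, 36, 44, 52, 60, 68, 76, 84, 92, 100, 108, 116, 124, 132, 140, 148, 8355841, 5479705, 6914177, 2458369, 4165401, 6524609, 7114521, 6525249, 13631489, 13569817, 6950681, 8650753, 11927553, 10223617, 6455681, 688129, 1052441],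
  Vale.Agent.P032.Lt.q_of (e' := WQ003.e74) (by decide +kernel) WQ003.q74⟩

theorem w75 : Wx (EX1w xs7) Vale.Agent.P032X.Cert.X1b.t1 (Vale.Agent.P032.H357.SymV.n5eC 73 TF.TB) WQ003.W75 := ⟨[0, 8, 16, 24, 32, 40, 48, 832, 840, 848, 856, 4, 12, 20, 28, 36, 44, 52, 60, 68, 76, 84, 92, 100, 108, 116, 124, 132, 140, 148, 156, 164, 172, 180, 5767233, 819265, 4424729, 4425113, 10682433, 4361625, 822745, 5770713, 7569409, 4358145, 6067521, 5439553, 3211393, 589889, 5443033, 5475905, 4784129, 4428225, 11599937, 5246361, 5242945, 5242881, 4427841, 1019289, 10682369, 5767169, 819201, 4361689, 7572953, 4358209, 7569473, 822681, 5472577, 4784577, 5439489, 3211521, 589825, 5442969, 5770649, 11599873, 3215001],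
  Vale.Agent.P032.Lt.q_of (e' := WQ003.e75) (by decide +kernel) WQ003.q75⟩

theorem w76 : Wx (EX1w xs7) Vale.Agent.P032X.Cert.X1b.t1 (Vale.Agent.P032.H357.SymV.n5eC 73 TF.TB) WQ003.W76 := ⟨[0, 8, 16, 24, 32, 40, 48, 832, 840, 848, 856, 4, 12, 20, 28, 36, 44, 52, 60, 68, 76, 84, 92, 100, 108, 116, 124, 132, 140, 148, 7569473, 5242945, 4424729, 4425113, 4947969, 6069569, 11599873, 5474841],
  Vale.Agent.P032.Lt.q_of (e' := WQ003.e76) (by decide +kernel) WQ003.q76⟩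

theorem w77 : Wx (EX1w xs7) Vale.Agent.P032X.Cert.X1b.t1 (Vale.Agent.P032.H357.SymV.n5eC 73 TF.TB) WQ003.W77 := ⟨[0, 8, 16, 24, 32, 40, 48, 832, 840, 848, 856, 4, 12, 20, 28, 36, 44, 52, 60, 68, 76, 84, 92, 100, 108, 116, 124, 132, 140, 148, 1052121, 3735553, 5242945, 5242881, 1052057, 3735617],
  Vale.Agent.P032.Lt.q_of (e' := WQ003.e77) (by decide +kernel) WQ003.q77⟩

theorem w78 : Wx (EX1w xs7) Vale.Agent.P032X.Cert.X1b.t1 (Vale.Agent.P032.H357.SymV.n5eC 73 TF.TB) WQ003.W78 := ⟨[0, 8, 16, 24, 32, 40, 48, 792, 816, 840, 848, 856, 4, 12, 20, 28, 36, 44, 52, 60, 68, 76, 84, 92, 100, 108, 14680193],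
  Vale.Agent.P032.Lt.q_of (e' := WQ003.e78) (by decide +kernel) WQ003.q78⟩

theorem w79 : Wx (EX1w xs7) Vale.Agent.P032X.Cert.X1b.t1 (Vale.Agent.P032.H357.SymV.n5eC 73 TF.TB) WQ003.W79 := ⟨[0, 8, 16, 24, 32, 40, 48, 760, 832, 840, 848, 856, 4, 12, 20, 28, 36, 44, 52, 60, 68, 76, 84, 92, 100, 108, 116, 124, 132, 140, 14910105, 9798041, 6066137, 15040921, 7700633, 7700993, 4424577, 15040513, 10879385, 1442521, 7700761, 15040985, 7864385, 16253401, 7897089],
  Vale.Agent.P032.Lt.q_of (e' := WQ003.e79) (by decide +kernel) WQ003.q79⟩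

theorem w80 : Wx (EX1w xs7) Vale.Agent.P032X.Cert.X1b.t1 (Vale.Agent.P032.H357.SymV.n5eC 73 TF.TB) WQ003.W80 := ⟨[0, 8, 16, 24, 32, 40, 48, 760, 840, 848, 856, 4, 12, 20, 28, 36, 44, 52, 60, 68, 76, 84, 92, 100, 108, 116, 124, 12586777, 12554009, 12582913, 691993, 7868313],
  Vale.Agent.P032.Lt.q_of (e' := WQ003.e80) (by decide +kernel) WQ003.q80⟩

theorem w81 : Wx (EX1w xs7) Vale.Agent.P032X.Cert.X1b.t1 (Vale.Agent.P032.H357.SymV.n5eC 73 TF.TB) WQ003.W81 := ⟨[0, 8, 16, 24, 32, 40, 48, 792, 816, 840, 848, 856, 4, 12, 20, 28, 36, 44, 52, 60, 68, 76, 84, 92, 100, 108, 116, 124, 132, 140, 148, 156, 164, 172, 180, 188, 196, 204, 212, 8355841, 1740569, 4424025, 4424921, 12582913, 4428225, 4427841, 16224025, 11865881, 2330393, 4259841, 12648449, 14811137, 16154753, 10354689, 4030465, 14618393, 10289153, 622593, 10719001, 7016217, 11730945, 15630337, 10948377, 1998849, 855833, 7278361, 3342337, 2297625, 9375513, 6721305,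 10387457, 3280665, 7737113, 12484609],
  Vale.Agent.P032.Lt.q_of (e' := WQ003.e81) (by decide +kernel) WQ003.q81⟩

theorem w82 : Wx (EX1w xs7) Vale.Agent.P032X.Cert.X1b.t1 (Vale.Agent.P032.H357.SymV.n5eC 73 TF.TB) WQ003.W82 := ⟨[0, 8, 16, 24, 32, 40, 48, 832, 840, 848, 856, 4, 12, 20, 28, 36, 44, 52, 60, 68, 76, 84, 92, 100, 108, 116, 124, 132, 140, 13864385, 6684737, 4424961, 15040577, 15040921, 15040513, 4424577, 13864321, 6684673, 3506753],
  Vale.Agent.P032.Lt.q_of (e' := WQ003.e82) (by decide +kernel) WQ003.q82⟩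

theorem w83 : Wx (EX1w xs7) Vale.Agent.P032X.Cert.X1b.t1 (Vale.Agent.P032.H357.SymV.n5eC 73 TF.TB) WQ003.W83 := ⟨[0, 8, 16, 24, 32, 40, 48, 112, 816, 840, 848, 856, 4, 12, 20, 28, 36, 44, 52, 60, 68, 76, 84, 92, 100, 108, 116, 124, 132, 140, 148, 156, 164, 172, 180, 188, 12582913, 12586777, 11505561, 6754073, 1048577, 14910233, 7864449, 4165401, 6914049, 8650753, 6590297, 8388609, 11534337, 1703937, 2326529, 10715137, 15368193, 11112217, 1576857, 2330393, 4428225, 6815745, 13926401, 344065, 49153],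
  Vale.Agent.P032.Lt.q_of (e' := WQ003.e83) (by decide +kernel) WQ003.q83⟩

theorem w84 : Wx (EX1w xs7) Vale.Agent.P032X.Cert.X1b.t1 (Vale.Agent.P032.H357.SymV.n5eC 73 TF.TB) WQ003.W84 := ⟨[0, 8, 16, 24, 32, 40, 48, 760, 792, 816, 832, 840, 848, 856, 4, 12, 20, 28, 36, 44, 52, 60, 68, 76, 84, 92, 100, 108, 116, 124, 132, 140, 148, 156, 164, 4427841, 6262553, 5734401, 12845057, 2260993, 7180057, 14389017, 6782977, 249625, 655361, 2326529, 12189697],
  Vale.Agent.P032.Lt.q_of (e' := WQ003.e84) (by decide +kernel) WQ003.q84⟩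

def L : List (List ℕ) := [WQ000.W0, WQ000.W1, WQ000.W2, WQ000.W3, WQ000.W4, WQ000.W5, WQ000.W6, WQ000.W7, WQ000.W8, WQ000.W9, WQ000.W10, WQ000.W11, WQ000.W12, WQ000.W13, WQ000.W14, WQ000.W15, WQ000.W16, WQ000.W17, WQ000.W18, WQ000.W19, WQ000.W20, WQ000.W21, WQ000.W22, WQ001.W23, WQ001.W24, WQ001.W25, WQ001.W26, WQ001.W27, WQ001.W28, WQ001.W29, WQ001.W30, WQ001.W31, WQ001.W32, WQ001.W33, WQ001.W34, WQ001.W35, WQ001.W36, WQ001.W37, WQ001.W38, WQ001.W39, WQ001.W40, WQ001.W41, WQ001.W42, WQ001.W43, WQ001.W44, WQ001.W45, WQ002.W46, WQ002.W47, WQ002.W48, WQ002.W49, WQ002.W50, WQ002.W51, WQ002.W52, WQ002.W53, WQ002.W54, WQ002.W55, WQ002.W56, WQ002.W57, WQ002.W58, WQ002.W59, WQ002.W60, WQ002.W61, WQ002.W62, WQ002.W63, WQ002.W64, WQ003.W65, WQ003.W66, WQ003.W67, WQ003.W68, WQ003.W69, WQ003.W70, WQ003.W71, WQ003.W72, WQ003.W73, WQ003.W74, WQ003.W75, WQ003.W76, WQ003.W77, WQ003.W78, WQ003.W79, WQ003.W80, WQ003.W81, WQ003.W82,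 WQ003.W83, WQ003.W84]

theorem all : ∀ P ∈ L, Wx (EX1w xs7) Vale.Agent.P032X.Cert.X1b.t1 (Vale.Agent.P032.H357.SymV.n5eC 73 TF.TB) P := wx_cons w0 (wx_cons w1 (wx_cons w2 (wx_cons w3 (wx_cons w4 (wx_cons w5 (wx_cons w6 (wx_cons w7 (wx_cons w8 (wx_cons w9 (wx_cons w10 (wx_cons w11 (wx_cons w12 (wx_cons w13 (wx_cons w14 (wx_cons w15 (wx_cons w16 (wx_cons w17 (wx_cons w18 (wx_cons w19 (wx_cons w20 (wx_cons w21 (wx_cons w22 (wx_cons w23 (wx_cons w24 (wx_cons w25 (wx_cons w26 (wx_cons w27 (wx_cons w28 (wx_cons w29 (wx_cons w30 (wx_cons w31 (wx_cons w32 (wx_cons w33 (wx_cons w34 (wx_cons w35 (wx_cons w36 (wx_cons w37 (wx_cons w38 (wx_cons w39 (wx_cons w40 (wx_cons w41 (wx_cons w42 (wx_cons w43 (wx_cons w44 (wx_cons w45 (wx_cons w46 (wx_cons w47 (wx_cons w48 (wx_cons w49 (wx_cons w50 (wx_cons w51 (wx_cons w52 (wx_cons w53 (wx_cons w54 (wx_cons w55 (wx_cons w56 (wx_cons w57 (wx_cons w58 (wx_cons w59 (wx_cons w60 (wx_cons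 w61 (wx_cons w62 (wx_cons w63 (wx_cons w64 (wx_cons w65 (wx_cons w66 (wx_cons w67 (wx_cons w68 (wx_cons w69 (wx_cons w70 (wx_cons w71 (wx_cons w72 (wx_cons w73 (wx_cons w74 (wx_cons w75 (wx_cons w76 (wx_cons w77 (wx_cons w78 (wx_cons w79 (wx_cons w80 (wx_cons w81 (wx_cons w82 (wx_cons w83 (wx_cons w84 wx_nil))))))))))))))))))))))))))))))))))))))))))))))))))))))))))))))))))))))))))))))))))))

end Vale.Agent.P032X.Cert.X1b.WH000
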