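import Vale.Agent.P032X.H892.LtH
import Vale.Agent.P032X.H286.A73
import Vale.Agent.P032X.Cert.X1b.T
import Vale.Agent.P032X.Cert.X1b.WQ004
import Vale.Agent.P032X.Cert.X1b.WQ005
import Vale.Agent.P032X.Cert.X1b.WQ006
import Vale.Agent.P032X.Cert.X1b.WQ007

set_option maxRecDepth 1000000

namespace Vale.Agent.P032X.Cert.X1b.WH001

open Vale.Agent.P032.H820.K Vale.Agent.P032.H357.MK Vale.Agent.P032.H286.E Vale.Agent.P032.H61 Vale.Agent.P032.H61.TF Vale.Agent.P032.BlkE Vale.Agent.P032.BlkS Vale.Agent.P032.H357 Vale.Agent.P032 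

theorem w85 : Wx (EX1w xs7) Vale.Agent.P032X.Cert.X1b.t1 (Vale.Agent.P032.H357.SymV.n5eC 73 TF.TB) WQ004.W85 := ⟨[0, 8, 16, 24, 32, 40, 48, 64, 176, 208, 216, 816, 832, 840, 848, 856, 4, 12, 20, 28, 36, 44, 52, 60, 68, 76, 84, 92, 100, 108, 116, 124, 132, 140, 148, 156, 164, 172, 12582913, 4428225, 4427841, 4718593, 10915609, 4165401, 12845057, 8355841, 753665, 98305, 8486913, 11239425, 12222465, 7798785, 1933313, 13467649, 11960321, 4096001, 278529, 7340033, 1310721, 6553601, 4325377, 2326529, 6160385, 15597569, 1671169, 8126465, 3932161, 10584065, 6389761, 12681217, 8749057, 5570561, 3571713, 2195457, 8028161, 950401, 13533185, 7077889, 3997697, 1835009, 12320769, 15859713, 6029313, 3178497, 4063233, 1146881, 15925249, 16154625, 5505025, 13664257, 491521, 16056321, 4915201, 4624153, 393217, 1507329, 11206657, 1179649, 9568257, 15532033, 6422529, 11403265, 8617985, 10420225, 2555905, 10715137, 11141121, 9469953, 4292609, 12255233,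 884737, 9633793, 14356249, 14778369, 7241729, 11042817, 3604481, 11567105, 16187393, 11894785, 12419073, 1966145, 12976129, 4849665, 10813441, 6094849, 1048577, 11505561, 6914049, 13798425, 9506585, 6590297, 6492313, 15564801, 9502721, 9867417, 14910233, 8192001, 4390913, 13303809, 6360857, 16121857, 6881281, 12451841, 2654209, 13434881, 14618393, 3084057, 12156929, 13537049, 2166553, 7474969, 1081345, 14876673, 9699329, 2035481, 11472665, 13336577, 11993089, 688129, 8650753, 8388609, 11534337, 3801217, 15368193, 11112217, 3116825, 10649601],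
  Vale.Agent.P032.Lt.q_of (e' := WQ004.e85) (by decide +kernel) WQ004.q85⟩

theorem w86 : Wx (EX1w xs7) Vale.Agent.P032X.Cert.X1b.t1 (Vale.Agent.P032.H357.SymV.n5eC 73 TF.TB) WQ004.W86 := ⟨[0, 8, 16, 24, 32, 40, 48, 88, 832, 840, 848, 856, 4, 12, 20, 28, 36, 44, 52, 60, 68, 76, 84, 92, 100, 108, 116, 124, 132, 140, 148, 156, 164, 172, 10878977, 7864793, 2982361, 15040921],
  Vale.Agent.P032.Lt.q_of (e' := WQ004.e86) (by decide +kernel) WQ004.q86⟩

theorem w87 : Wx (EX1w xs7) Vale.Agent.P032X.Cert.X1b.t1 (Vale.Agent.P032.H357.SymV.n5eC 73 TF.TB) WQ004.W87 := ⟨[0, 8, 16, 24, 32, 40, 48, 840, 848, 856, 4, 12, 20, 28, 36, 44, 52, 60, 68, 76, 84, 92, 100, 108, 116, 124, 132, 140, 148, 156, 164, 1740569, 6229785, 8355841, 1048577],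
  Vale.Agent.P032.Lt.q_of (e' := WQ004.e87) (by decide +kernel) WQ004.q87⟩

theorem w88 : Wx (EX1w xs7) Vale.Agent.P032X.Cert.X1b.t1 (Vale.Agent.P032.H357.SymV.n5eC 73 TF.TB) WQ004.W88 := ⟨[0, 8, 16, 24, 32, 40, 48, 112, 832, 840, 848, 856, 4, 12, 20, 28, 36, 44, 52, 60, 68, 76, 84, 92, 100, 108, 116, 124, 132, 5242881, 10846465, 689409, 1048641, 10846337, 689025, 1048577],
  Vale.Agent.P032.Lt.q_of (e' := WQ004.e88) (by decide +kernel) WQ004.q88⟩

theorem w89 : Wx (EX1w xs7) Vale.Agent.P032X.Cert.X1b.t1 (Vale.Agent.P032.H357.SymV.n5eC 73 TF.TB) WQ004.W89 := ⟨[0, 8, 16, 24, 32, 40, 48, 792, 832, 840, 848, 856, 4, 12, 20, 28, 36, 44, 52, 60, 68, 76, 84, 92, 100, 108, 116, 124, 132, 140, 148, 156, 164, 172, 180, 11505561, 1052441, 6066905, 4428225, 10977281, 6094849, 4165401, 4427841, 2260993, 10915609, 4525849, 15171585, 12091393, 13926401, 98305, 753665, 2555905, 1343489, 986905, 13172737, 11075585, 12288001, 3702785, 10321921,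 10551297, 12586777, 688129, 5475265, 8650753, 6590297, 1576729, 15368193, 8388609, 11534337, 10092545, 10715137, 2326529, 2330393],
  Vale.Agent.P032.Lt.q_of (e' := WQ004.e89) (by decide +kernel) WQ004.q89⟩

theorem w90 : Wx (EX1w xs7) Vale.Agent.P032X.Cert.X1b.t1 (Vale.Agent.P032.H357.SymV.n5eC 73 TF.TB) WQ004.W90 := ⟨[0, 8, 16, 24, 32, 40, 48, 840, 848, 856, 4, 12, 20, 28, 36, 44, 52, 60, 68, 76, 84, 92, 100, 108, 10485761, 13598721, 6262553, 9506585],
  Vale.Agent.P032.Lt.q_of (e' := WQ004.e90) (by decide +kernel) WQ004.q90⟩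

theorem w91 : Wx (EX1w xs7) Vale.Agent.P032X.Cert.X1b.t1 (Vale.Agent.P032.H357.SymV.n5eC 73 TF.TB) WQ004.W91 := ⟨[0, 8, 16, 24, 32, 40, 48, 840, 848, 856, 4, 12, 20, 28, 36, 44, 52, 60, 68, 76, 84, 92, 100, 108, 116, 124, 132, 8359705, 11013913, 12582913, 1740569, 2461209, 8421377, 2264857, 16023593, 4424025, 2260993],
  Vale.Agent.P032.Lt.q_of (e' := WQ004.e91) (by decide +kernel) WQ004.q91⟩

theorem w92 : Wx (EX1w xs7) Vale.Agent.P032X.Cert.X1b.t1 (Vale.Agent.P032.H357.SymV.n5eC 73 TF.TB) WQ004.W92 := ⟨[0, 8, 16, 24, 32, 40, 48, 80, 832, 840, 848, 856, 4, 12, 20, 28, 36, 44, 52, 60, 68, 76, 84, 92, 100, 108, 116, 124, 132, 140, 9797633, 15040921, 16252929, 4424577, 14909913, 5603329, 7700993, 9798041, 10879385, 1442201, 15040985],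
  Vale.Agent.P032.Lt.q_of (e' := WQ004.e92) (by decide +kernel) WQ004.q92⟩

theorem w93 : Wx (EX1w xs7) Vale.Agent.P032X.Cert.X1b.t1 (Vale.Agent.P032.H357.SymV.n5eC 73 TF.TB) WQ004.W93 := ⟨[0, 8, 16, 24, 32, 40, 48, 176, 216, 792, 816, 840, 848, 856, 4, 12, 20, 28, 36, 44, 52, 60, 68, 76, 84, 92, 100, 108, 116, 124, 132, 140, 148, 156, 164, 172, 7115777, 12582913, 6914177, 9506585, 4428225, 11505433, 14910361, 2592537, 6066905, 6590297, 4427841, 10915609, 4165401, 12845057, 8355841, 13959169, 118553, 212993, 12615681, 1933313, 11960321, 16385, 4915201, 1576729, 15368193, 8650753, 7864449, 11112217, 8388609, 11534337, 3801089, 2326529, 10649601, 10715137],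
  Vale.Agent.P032.Lt.q_of (e' := WQ004.e93) (by decide +kernel) WQ004.q93⟩

theorem w94 : Wx (EX1w xs7) Vale.Agent.P032X.Cert.X1b.t1 (Vale.Agent.P032.H357.SymV.n5eC 73 TF.TB) WQ004.W94 := ⟨[0, 8, 16, 24, 32, 40, 48, 816, 832, 840, 848, 856, 4, 12, 20, 28, 36, 44, 52, 60, 68, 76, 84, 92, 100, 108, 116, 124, 132, 140, 148, 3506457, 9798041, 7700633, 5472321, 3506265, 5477569, 7700697, 3506329, 16253401, 7897089, 3506393],
  Vale.Agent.P032.Lt.q_of (e' := WQ004.e94) (by decide +kernel) WQ004.q94⟩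

theorem w95 : Wx (EX1w xs7) Vale.Agent.P032X.Cert.X1b.t1 (Vale.Agent.P032.H357.SymV.n5eC 73 TF.TB) WQ004.W95 := ⟨[0, 8, 16, 24, 32, 40, 48, 232, 840, 848, 856, 4, 12, 20, 28, 36, 44, 52, 60, 68, 76, 84, 92, 100, 108, 116, 124, 132, 140, 148, 156, 164, 6750209, 15568665, 691993, 14974977, 4161537, 8359705, 6098713, 6918041, 11833113, 12648449, 1740569, 12586777, 8355841],
  Vale.Agent.P032.Lt.q_of (e' := WQ004.e95) (by decide +kernel) WQ004.q95⟩

theorem w96 : Wx (EX1w xs7) Vale.Agent.P032X.Cert.X1b.t1 (Vale.Agent.P032.H357.SymV.n5eC 73 TF.TB) WQ004.W96 := ⟨[0, 8, 16, 24, 32, 40, 48, 792, 816, 832, 840, 848, 856, 4, 12, 20, 28, 36, 44, 52, 60, 68, 76, 84, 92, 100, 108, 116, 124, 132, 140, 16254105, 5604633, 3506393, 3506265, 5472513, 3965185, 3506329, 16253401, 9798041, 5472345, 5603993],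
  Vale.Agent.P032.Lt.q_of (e' := WQ004.e96) (by decide +kernel) WQ004.q96⟩

theorem w97 : Wx (EX1w xs7) Vale.Agent.P032X.Cert.X1b.t1 (Vale.Agent.P032.H357.SymV.n5eC 73 TF.TB) WQ004.W97 := ⟨[0, 8, 16, 24, 32, 40, 48, 816, 832, 840, 848, 856, 4, 12, 20, 28, 36, 44, 52, 60, 68, 76, 84, 92, 100, 108, 116, 124, 132, 3506497, 4424577, 7700481, 14155929, 14024793, 3506369, 14024729, 14156057, 7700545],
  Vale.Agent.P032.Lt.q_of (e' := WQ004.e97) (by decide +kernel) WQ004.q97⟩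

theorem w98 : Wx (EX1w xs7) Vale.Agent.P032X.Cert.X1b.t1 (Vale.Agent.P032.H357.SymV.n5eC 73 TF.TB) WQ004.W98 := ⟨[0, 8, 16, 24, 32, 40, 48, 816, 832, 840, 848, 856, 4, 12, 20, 28, 36, 44, 52, 60, 68, 76, 84, 92, 100, 108, 116, 124, 132, 140, 148, 156, 14155841, 3506369, 14155777, 3506497],
  Vale.Agent.P032.Lt.q_of (e' := WQ004.e98) (by decide +kernel) WQ004.q98⟩

theorem w99 : Wx (EX1w xs7) Vale.Agent.P032X.Cert.X1b.t1 (Vale.Agent.P032.H357.SymV.n5eC 73 TF.TB) WQ004.W99 := ⟨[0, 8, 16, 24, 32, 40, 48, 216, 224, 840, 848, 856, 4, 12, 20, 28, 36, 44, 52, 60, 68, 76, 84, 92, 100, 108, 116, 124, 132, 140, 12586777, 2458689, 8355841, 6068121, 1052441, 2366617, 5963777, 11108353, 15372057, 1572993, 3670337, 10715137, 2326529, 11112217, 10719001, 2330393, 5902105, 7995393, 1703937, 8785689, 6979585, 6291457, 13209369, 12058625, 5898369, 10747905, 1710657, 12058945, 9142273, 5636097, 6754073],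
  Vale.Agent.P032.Lt.q_of (e' := WQ004.e99) (by decide +kernel) WQ004.q99⟩

theorem w100 : Wx (EX1w xs7) Vale.Agent.P032X.Cert.X1b.t1 (Vale.Agent.P032.H357.SymV.n5eC 73 TF.TB) WQ004.W100 := ⟨[0, 8, 16, 24, 32, 40, 48, 840, 848, 856, 4, 12, 20, 28, 36, 44, 52, 60, 68, 76, 84, 92, 100, 108, 116, 124, 132, 140, 148, 156, 164, 8359705, 8355841, 4424025, 2002713, 14123009, 4263705, 14815001, 16289561, 298777, 14057473, 12353537, 1998849, 16285697, 12582913, 1052441],
  Vale.Agent.P032.Lt.q_of (e' := WQ004.e100) (by decide +kernel) WQ004.q100⟩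

theorem w101 : Wx (EX1w xs7) Vale.Agent.P032X.Cert.X1b.t1 (Vale.Agent.P032.H357.SymV.n5eC 73 TF.TB) WQ004.W101 := ⟨[0, 8, 16, 24, 32, 40, 48, 160, 168, 216, 224, 792, 840, 848, 856, 4, 12, 20, 28, 36, 44, 52, 60, 68, 76, 84, 92, 100, 108, 116, 124, 132, 140, 148, 156, 164, 172, 180, 1049537, 2264857, 2458689, 13008897, 4424025, 5472921, 5475673, 1052441, 8650753, 6064769, 11698177, 2460257, 11927553, 10092545, 13733657, 7045249, 3116825, 2326529, 10715137, 2232089, 6754073, 2459937, 4424921, 4820761, 3670017, 2330393, 5639961, 4460313, 7409433, 14453729, 1711257, 13897497, 5898369, 7999257, 5472729],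
  Vale.Agent.P032.Lt.q_of (e' := WQ004.e101) (by decide +kernel) WQ004.q101⟩

theorem w102 : Wx (EX1w xs7) Vale.Agent.P032X.Cert.X1b.t1 (Vale.Agent.P032.H357.SymV.n5eC 73 TF.TB) WQ004.W102 := ⟨[0, 8, 16, 24, 32, 40, 48, 840, 848, 856, 4, 12, 20, 28, 36, 44, 52, 60, 68, 76, 84, 92, 100, 108, 116, 124, 132, 140, 148, 15568665, 2264857, 12586777, 13008897, 2458369, 13736161, 4161537, 4821001, 2458689, 6098713, 13074433, 12357401, 13307673, 13700889, 8589081, 200473, 4489217, 5144577, 2330393, 10719001, 4424025, 9404545],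
  Vale.Agent.P032.Lt.q_of (e' := WQ004.e102) (by decide +kernel) WQ004.q102⟩

theorem w103 : Wx (EX1w xs7) Vale.Agent.P032X.Cert.X1b.t1 (Vale.Agent.P032.H357.SymV.n5eC 73 TF.TB) WQ004.W103 := ⟨[0, 8, 16, 24, 32, 40, 48, 840, 848, 856, 4, 12, 20, 28, 36, 44, 52, 60, 68, 76, 84, 92, 100, 108, 116, 124, 132, 140, 148, 156, 691993, 14910361, 12025857, 4428225, 7835417, 11927553, 8650753, 12586777, 2264857],
  Vale.Agent.P032.Lt.q_of (e' := WQ004.e103) (by decide +kernel) WQ004.q103⟩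

theorem w104 : Wx (EX1w xs7) Vale.Agent.P032X.Cert.X1b.t1 (Vale.Agent.P032.H357.SymV.n5eC 73 TF.TB) WQ004.W104 := ⟨[0, 8, 16, 24, 32, 40, 48, 816, 832, 840, 848, 856, 4, 12, 20, 28, 36, 44, 52, 60, 68, 76, 84, 92, 100, 108, 116, 124, 132, 140, 148, 2457729, 6525249, 4424921, 2458369, 5479705, 6524609, 7114521, 1216281, 14057473, 10030873, 15826945, 8454145, 4620353, 7438337, 12160793, 15892481, 14356249, 2523137, 5377817, 1478425, 5836569, 11276057, 4591385, 5474457, 6524865, 6524481, 5213977],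
  Vale.Agent.P032.Lt.q_of (e' := WQ004.e104) (by decide +kernel) WQ004.q104⟩

theorem w105 : Wx (EX1w xs7) Vale.Agent.P032X.Cert.X1b.t1 (Vale.Agent.P032.H357.SymV.n5eC 73 TF.TB) WQ005.W105 := ⟨[0, 8, 16, 24, 32, 40, 48, 760, 816, 832, 840, 848, 856, 4, 12, 20, 28, 36, 44, 52, 60, 68, 76, 84, 92, 100, 108, 116, 124, 132, 140, 13009217, 2264857, 15568665, 14385153, 7176193, 6786841, 1642265],
  Vale.Agent.P032.Lt.q_of (e' := WQ005.e105) (by decide +kernel) WQ005.q105⟩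

theorem w106 : Wx (EX1w xs7) Vale.Agent.P032X.Cert.X1b.t1 (Vale.Agent.P032.H357.SymV.n5eC 73 TF.TB) WQ005.W106 := ⟨[0, 8, 16, 24, 32, 40, 48, 840, 848, 856, 4, 12, 20, 28, 36, 44, 52, 60, 68, 76, 84, 92, 100, 108, 116, 124, 132, 140, 14385153, 6258689, 2264857, 7176193, 6786841, 11177753, 3772185, 1642265, 15433729, 15568665],
  Vale.Agent.P032.Lt.q_of (e' := WQ005.e106) (by decide +kernel) WQ005.q106⟩

theorem w107 : Wx (EX1w xs7) Vale.Agent.P032X.Cert.X1b.t1 (Vale.Agent.P032.H357.SymV.n5eC 73 TF.TB) WQ005.W107 := ⟨[0, 8, 16, 24, 32, 40, 48, 224, 840, 848, 856, 4, 12, 20, 28, 36, 44, 52, 60, 68, 76, 84, 92, 100, 108, 116, 124, 132, 140, 148, 156, 164, 5963777, 14913025, 11501697, 6918041, 5472385, 4424921, 10911745, 12124161, 6819609, 13930265, 4620289, 5148441, 16158489, 5476249, 6586433, 8654617, 11931417, 15798041, 10096409, 2330393, 15372057, 10719001, 8355841, 6098713, 10981273],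
  Vale.Agent.P032.Lt.q_of (e' := WQ005.e107) (by decide +kernel) WQ005.q107⟩

theorem w108 : Wx (EX1w xs7) Vale.Agent.P032X.Cert.X1b.t1 (Vale.Agent.P032.H357.SymV.n5eC 73 TF.TB) WQ005.W108 := ⟨[0, 8, 16, 24, 32, 40, 48, 112, 120, 792, 840, 848, 856, 4, 12, 20, 28, 36, 44, 52, 60, 68, 76, 84, 92, 100, 108, 116, 124, 132, 140, 148, 156, 164, 172, 5475265, 5477569, 2002713, 13729793, 11698177, 5341185, 11702041, 7045249, 688129, 13733657, 7049113, 9437185, 4429801, 2462737, 5345049, 6979585, 2326529, 2719745, 8263313, 5013825, 2330393, 8982297, 14946073, 8260449, 5017689, 3313433, 7307265, 7311129, 9441049, 3309569],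
  Vale.Agent.P032.Lt.q_of (e' := WQ005.e108) (by decide +kernel) WQ005.q108⟩

theorem w109 : Wx (EX1w xs7) Vale.Agent.P032X.Cert.X1b.t1 (Vale.Agent.P032.H357.SymV.n5eC 73 TF.TB) WQ005.W109 := ⟨[0, 8, 16, 24, 32, 40, 48, 760, 792, 832, 840, 848, 856, 4, 12, 20, 28, 36, 44, 52, 60, 68, 76, 84, 92, 100, 108, 116, 124, 132, 140, 148, 156, 164, 172, 180, 188, 196, 204, 4427841, 4428225, 8355841, 4424921, 1740569, 4424025, 9011201, 1998849, 11865881, 16224025, 8818521, 16154625, 4030465, 13697025, 3280665, 7737113, 4653057, 8851225, 2330393, 10719001, 14618393, 11730945, 7016217, 3870489, 15302657, 8159233, 622593, 3407873, 2002713, 15630337, 13041665, 10289153, 10948377, 855833, 7278361, 9375513, 3342337, 2297625, 6721305],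
  Vale.Agent.P032.Lt.q_of (e' := WQ005.e109) (by decide +kernel) WQ005.q109⟩

theorem w110 : Wx (EX1w xs7) Vale.Agent.P032X.Cert.X1b.t1 (Vale.Agent.P032.H357.SymV.n5eC 73 TF.TB) WQ005.W110 := ⟨[0, 8, 16, 24, 32, 40, 48, 224, 816, 832, 840, 848, 856, 4, 12, 20, 28, 36, 44, 52, 60, 68, 76, 84, 92, 100, 108, 116, 124, 132, 140, 148, 14126873, 16285697, 11439897, 2621441, 2326529, 10715137, 14815001, 10719001, 2330393, 2625305, 16289561, 298777, 14811137, 950401, 13533185],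
  Vale.Agent.P032.Lt.q_of (e' := WQ005.e110) (by decide +kernel) WQ005.q110⟩

theorem w111 : Wx (EX1w xs7) Vale.Agent.P032X.Cert.X1b.t1 (Vale.Agent.P032.H357.SymV.n5eC 73 TF.TB) WQ005.W111 := ⟨[0, 8, 16, 24, 32, 40, 48, 840, 848, 856, 4, 12, 20, 28, 36, 44, 52, 60, 68, 76, 84, 92, 100, 108, 116, 124, 132, 140, 2461337, 4427841, 1736705, 13012761, 8355841, 2264857, 9863169, 5210113, 9601025],
  Vale.Agent.P032.Lt.q_of (e' := WQ005.e111) (by decide +kernel) WQ005.q111⟩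

theorem w112 : Wx (EX1w xs7) Vale.Agent.P032X.Cert.X1b.t1 (Vale.Agent.P032.H357.SymV.n5eC 73 TF.TB) WQ005.W112 := ⟨[0, 8, 16, 24, 32, 40, 48, 832, 840, 848, 856, 4, 12, 20, 28, 36, 44, 52, 60, 68, 76, 84, 92, 100, 108, 116, 124, 132, 140, 148, 156, 164, 172, 5770649, 4784577, 7569473, 8916377, 4425113, 10682433, 4424729],
  Vale.Agent.P032.Lt.q_of (e' := WQ005.e112) (by decide +kernel) WQ005.q112⟩

theorem w113 : Wx (EX1w xs7) Vale.Agent.P032X.Cert.X1b.t1 (Vale.Agent.P032.H357.SymV.n5eC 73 TF.TB) WQ005.W113 := ⟨[0, 8, 16, 24, 32, 40, 48, 840, 848, 856, 4, 12, 20, 28, 36, 44, 52, 60, 68, 76, 84, 92, 100, 108, 116, 124, 132, 3378969, 2264857],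
  Vale.Agent.P032.Lt.q_of (e' := WQ005.e113) (by decide +kernel) WQ005.q113⟩

theorem w114 : Wx (EX1w xs7) Vale.Agent.P032X.Cert.X1b.t1 (Vale.Agent.P032.H357.SymV.n5eC 73 TF.TB) WQ005.W114 := ⟨[0, 8, 16, 24, 32, 40, 48, 832, 840, 848, 856, 4, 12, 20, 28, 36, 44, 52, 60, 68, 76, 84, 92, 100, 108, 116, 124, 132, 140, 148, 156, 164, 1048577, 4787225, 1052057, 5439553, 5443033, 1048641, 4787673, 5475673, 5439489, 5442969],
  Vale.Agent.P032.Lt.q_of (e' := WQ005.e114) (by decide +kernel) WQ005.q114⟩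

theorem w115 : Wx (EX1w xs7) Vale.Agent.P032X.Cert.X1b.t1 (Vale.Agent.P032.H357.SymV.n5eC 73 TF.TB) WQ005.W115 := ⟨[0, 8, 16, 24, 32, 40, 48, 840, 848, 856, 4, 12, 20, 28, 36, 44, 52, 60, 68, 76, 84, 92, 100, 108, 116, 124, 132, 140, 148, 156, 6750209, 1048577, 15568665, 15564801],
  Vale.Agent.P032.Lt.q_of (e' := WQ005.e115) (by decide +kernel) WQ005.q115⟩

theorem w116 : Wx (EX1w xs7) Vale.Agent.P032X.Cert.X1b.t1 (Vale.Agent.P032.H357.SymV.n5eC 73 TF.TB) WQ005.W116 := ⟨[0, 8, 16, 24, 32, 40, 48, 832, 840, 848, 856, 4, 12, 20, 28, 36, 44, 52, 60, 68, 76, 84, 92, 100, 108, 1114113, 9404417, 9864513, 15568665, 2264857],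
  Vale.Agent.P032.Lt.q_of (e' := WQ005.e116) (by decide +kernel) WQ005.q116⟩

theorem w117 : Wx (EX1w xs7) Vale.Agent.P032X.Cert.X1b.t1 (Vale.Agent.P032.H357.SymV.n5eC 73 TF.TB) WQ005.W117 := ⟨[0, 8, 16, 24, 32, 40, 48, 816, 832, 840, 848, 856, 4, 12, 20, 28, 36, 44, 52, 60, 68, 76, 84, 92, 100, 108, 116, 124, 132, 13602585, 1736705, 6127617, 9965337, 15106049, 1740569, 2458625, 12586777],
  Vale.Agent.P032.Lt.q_of (e' := WQ005.e117) (by decide +kernel) WQ005.q117⟩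

theorem w118 : Wx (EX1w xs7) Vale.Agent.P032X.Cert.X1b.t1 (Vale.Agent.P032.H357.SymV.n5eC 73 TF.TB) WQ005.W118 := ⟨[0, 8, 16, 24, 32, 40, 48, 832, 840, 848, 856, 4, 12, 20, 28, 36, 44, 52, 60, 68, 76, 84, 92, 100, 108, 116, 124, 132, 140, 5603329, 5603393, 7864729, 16252929, 15073281, 7864793, 9798105, 15040921, 15073345, 6684673, 4424577, 12943809, 5472729, 16252993, 7700993, 15040985, 15040577, 4424961, 6684737, 9797697],
  Vale.Agent.P032.Lt.q_of (e' := WQ005.e118) (by decide +kernel) WQ005.q118⟩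

theorem w119 : Wx (EX1w xs7) Vale.Agent.P032X.Cert.X1b.t1 (Vale.Agent.P032.H357.SymV.n5eC 73 TF.TB) WQ005.W119 := ⟨[0, 8, 16, 24, 32, 40, 48, 816, 832, 840, 848, 856, 4, 12, 20, 28, 36, 44, 52, 60, 68, 76, 84, 92, 100, 108, 116, 124, 132, 5242945, 5242881, 5474009, 5475417, 5246425, 14024769, 9211465, 2457729, 4425113, 2457857, 4424729, 7569409, 12222465, 5472985, 5475353, 5963841, 14024705, 9211481, 5246361, 10682369, 12222529],
  Vale.Agent.P032.Lt.q_of (e' := WQ005.e119) (by decide +kernel) WQ005.q119⟩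

theorem w120 : Wx (EX1w xs7) Vale.Agent.P032X.Cert.X1b.t1 (Vale.Agent.P032.H357.SymV.n5eC 73 TF.TB) WQ005.W120 := ⟨[0, 8, 16, 24, 32, 40, 48, 816, 840, 848, 856, 4, 12, 20, 28, 36, 44, 52, 60, 68, 76, 84, 92, 100, 108, 116, 124, 132, 140, 148, 156, 12582913, 12586777, 2461209, 13012761, 7864449, 4427841, 2260993, 5734401],
  Vale.Agent.P032.Lt.q_of (e' := WQ005.e120) (by decide +kernel) WQ005.q120⟩

theorem w121 : Wx (EX1w xs7) Vale.Agent.P032X.Cert.X1b.t1 (Vale.Agent.P032.H357.SymV.n5eC 73 TF.TB) WQ005.W121 := ⟨[0, 8, 16, 24, 32, 40, 48, 112, 840, 848, 856, 4, 12, 20, 28, 36, 44, 52, 60, 68, 76, 84, 92, 100, 108, 116, 124, 132, 140, 148, 156, 164, 172, 1048577, 688129, 2461273, 6590297, 14910233, 11505561, 4165401, 6914049, 8650753, 8388609, 11534337, 1703937, 10715137, 2326529, 15368193, 1576729, 2330393, 12582913, 4428225, 2592537, 9998105, 10915609, 13926401, 5803801, 10190849, 4685825, 15728641, 12586777],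
  Vale.Agent.P032.Lt.q_of (e' := WQ005.e121) (by decide +kernel) WQ005.q121⟩

theorem w122 : Wx (EX1w xs7) Vale.Agent.P032X.Cert.X1b.t1 (Vale.Agent.P032.H357.SymV.n5eC 73 TF.TB) WQ005.W122 := ⟨[0, 8, 16, 24, 32, 40, 48, 112, 176, 760, 840, 848, 856, 4, 12, 20, 28, 36, 44, 52, 60, 68, 76, 84, 92, 100, 108, 116, 124, 132, 140, 148, 156, 164, 1052441, 11505561, 15564801, 688129, 4165401, 14910233, 6914177, 8650753, 6590297, 11112217, 15368193, 1576729, 5017689, 10649601, 11534337, 10092545, 2326529, 8388609, 10715137, 4428225, 8355841, 16121857, 3084057, 13434881, 13336577, 13697025, 8359705, 12586777, 1736705, 4427841, 12582913, 10915609, 12845057, 11960321, 8749057, 11239425, 11403265, 4096001, 15925249, 13467649, 1933313, 4915201, 278529, 1835009, 5505025, 11206657, 7340033, 524289, 491521, 1507329, 4624153, 1179649, 6422529, 15532033],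
  Vale.Agent.P032.Lt.q_of (e' := WQ005.e122) (by decide +kernel) WQ005.q122⟩

theorem w123 : Wx (EX1w xs7) Vale.Agent.P032X.Cert.X1b.t1 (Vale.Agent.P032.H357.SymV.n5eC 73 TF.TB) WQ005.W123 := ⟨[0, 8, 16, 24, 32, 40, 48, 832, 840, 848, 856, 4, 12, 20, 28, 36, 44, 52, 60, 68, 76, 84, 92, 100, 108, 116, 124, 132, 15040921, 13863169, 7700993, 16252929, 7897561, 7897089, 15040985],
  Vale.Agent.P032.Lt.q_of (e' := WQ005.e123) (by decide +kernel) WQ005.q123⟩

theorem w124 : Wx (EX1w xs7) Vale.Agent.P032X.Cert.X1b.t1 (Vale.Agent.P032.H357.SymV.n5eC 73 TF.TB) WQ005.W124 := ⟨[0, 8, 16, 24, 32, 40, 48, 88, 832, 840, 848, 856, 4, 12, 20, 28, 36, 44, 52, 60, 68, 76, 84, 92, 100, 108, 116, 124, 132, 140, 16253337, 16252993, 10878977, 7864793, 5603737, 9797633, 2982553, 15040921, 4424473, 2981953, 6685081, 5473857, 10879385, 1442113, 1278361],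
  Vale.Agent.P032.Lt.q_of (e' := WQ005.e124) (by decide +kernel) WQ005.q124⟩

theorem w125 : Wx (EX1w xs7) Vale.Agent.P032X.Cert.X1b.t1 (Vale.Agent.P032.H357.SymV.n5eC 73 TF.TB) WQ005.W125 := ⟨[0, 8, 16, 24, 32, 40, 48, 224, 816, 832, 840, 848, 856, 4, 12, 20, 28, 36, 44, 52, 60, 68, 76, 84, 92, 100, 108, 116, 124, 132, 140, 148, 156, 164, 7114521, 2458689, 1740569, 4424025, 2264857, 10715137, 5672729, 12582913, 4428225, 14910361, 11865881, 8720153, 13700889, 9113369, 2326529, 2330393, 10719001, 4755225, 9932569, 7278361, 4653057, 2458369, 10387457, 8454145, 720897],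
  Vale.Agent.P032.Lt.q_of (e' := WQ005.e125) (by decide +kernel) WQ005.q125⟩

theorem w126 : Wx (EX1w xs7) Vale.Agent.P032X.Cert.X1b.t1 (Vale.Agent.P032.H357.SymV.n5eC 73 TF.TB) WQ006.W126 := ⟨[0, 8, 16, 24, 32, 40, 48, 792, 832, 840, 848, 856, 4, 12, 20, 28, 36, 44, 52, 60, 68, 76, 84, 92, 100, 108, 116, 124, 132, 140, 148, 156, 5964737, 14488657, 1052057, 1052121, 10682433, 1048641, 7962625, 5475393, 5965121, 5473473, 5963777, 10682369],
  Vale.Agent.P032.Lt.q_of (e' := WQ006.e126) (by decide +kernel) WQ006.q126⟩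

theorem w127 : Wx (EX1w xs7) Vale.Agent.P032X.Cert.X1b.t1 (Vale.Agent.P032.H357.SymV.n5eC 73 TF.TB) WQ006.W127 := ⟨[0, 8, 16, 24, 32, 40, 48, 160, 176, 760, 792, 816, 832, 840, 848, 856, 4, 12, 20, 28, 36, 44, 52, 60, 68, 76, 84, 92, 100, 108, 116, 124, 132, 140, 148, 156, 164, 172, 180, 188, 196, 204, 212, 220, 228, 236, 244, 252, 260, 8359705, 4427841, 4428225, 4424921, 9666753, 4424025, 1740569, 1736705, 8355841, 2260993, 12582913, 9867033, 9672153, 5410585, 9604889, 15958017, 15339289, 6324225, 9899801, 12586777, 2264857, 9863169, 5406721, 9601025, 15961881, 15335425, 9895937, 6328089, 6064065, 6066777, 1052441, 6750209, 8650753, 10158081, 10092545, 2326529, 10715137, 10649601, 2232089, 14456593, 269465, 11112217, 3473409, 3145729, 15699737, 7638809, 10387457, 3407873, 1245185, 10391321, 2133785, 14913025, 4460313, 5017369, 14910233, 1376257, 14319617, 8323073, 6651905, 8326937, 7208961, 2297625, 14618393, 14520089, 7376665,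 16089089, 11472665, 10293017, 7671577, 14749465, 14552857, 11468801, 9342873, 2330393, 3342337, 7274497, 3051289, 5181209, 36633, 5177345, 13893633, 12357401, 3084057, 2002713, 6197017, 11439897, 3865, 3047425, 8851225, 4653057, 15761409, 11436033, 6721305, 3080193, 16158617, 7474969, 15138817, 425985, 6717441, 163841, 5079041, 4132633, 5148441, 7769881, 8945665, 6193153, 3411737, 8949529, 1380121, 6852377, 9375513, 4030465, 11993089, 13041665, 6848513, 7278361, 7016217, 14516225, 13045529, 14712833, 2129921, 5082905, 9277209, 954265, 13537049, 12353537, 7212825, 16092953, 14745601, 10719001, 9339009, 6655769, 7766017, 7471105, 9273345, 950273, 13533185, 8847361, 4656921, 2162689, 3346201, 2293761, 7012353, 1, 13828097, 10289153, 4128769, 1478425, 10948377, 7667713, 429849, 331545, 917505, 233241, 13697025, 7372801, 10944513, 1969945, 14090241, 14614529, 1998849, 8818521, 11734809, 13242137, 1769473, 15401089, 2752513, 5144577,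 1966081, 4227073, 15765273, 921369, 8060929, 14094105, 15142681, 13700889, 229377, 13238273, 1249049, 1773337, 8814593, 12713985, 2166553, 11996953, 15404825, 2756377, 4034329, 12717849, 15634201, 12521241, 4230937, 11730945, 12517377, 8064793, 14581761, 14585625, 15630337, 167705, 1474561, 14417921, 2523137, 14421785, 7147289, 5934873, 14548993, 13897497, 14323481, 9371649, 32769, 13831961, 327681, 10125313, 2527001, 7143425, 5931009, 1409153, 10518529, 1413017, 12753473, 268865, 4456449, 6914177, 8978433, 14942209, 8982297, 6917913, 14453601, 14946073, 6291457, 5013505, 13402113, 12812289, 1703937, 7999257, 1707801, 12816153, 11108353, 10653465, 13405977, 8523545, 3309569, 3801089, 3112961, 12754073, 2228225, 9441049, 9437185, 7634945, 3804953, 3313433, 8519681, 8654617, 6754073, 1048577, 10161945, 10096409, 3477273, 3149593, 15695873],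
  Vale.Agent.P032.Lt.q_of (e' := WQ006.e127) (by decide +kernel) WQ006.q127⟩

theorem w128 : Wx (EX1w xs7) Vale.Agent.P032X.Cert.X1b.t1 (Vale.Agent.P032.H357.SymV.n5eC 73 TF.TB) WQ006.W128 := ⟨[0, 8, 16, 24, 32, 40, 48, 760, 840, 848, 856, 4, 12, 20, 28, 36, 44, 52, 60, 68, 76, 84, 92, 100, 108, 116, 124, 132, 140, 148, 156, 12586777, 2264857, 2458689, 4428225, 2461857, 14910233, 691993, 8650753, 11927553, 10754625, 10092545, 3670337, 2068249, 15794177, 11112217, 269465, 10715137, 2326529, 12058945, 2363161, 5636097, 12025857],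
  Vale.Agent.P032.Lt.q_of (e' := WQ006.e128) (by decide +kernel) WQ006.q128⟩

theorem w129 : Wx (EX1w xs7) Vale.Agent.P032X.Cert.X1b.t1 (Vale.Agent.P032.H357.SymV.n5eC 73 TF.TB) WQ006.W129 := ⟨[0, 8, 16, 24, 32, 40, 48, 816, 840, 848, 856, 4, 12, 20, 28, 36, 44, 52, 60, 68, 76, 84, 92, 100, 108, 116, 124, 132, 140, 148, 156, 164, 15564801, 12582913, 2461209, 13012761, 2461337, 7864449],
  Vale.Agent.P032.Lt.q_of (e' := WQ006.e129) (by decide +kernel) WQ006.q129⟩

theorem w130 : Wx (EX1w xs7) Vale.Agent.P032X.Cert.X1b.t1 (Vale.Agent.P032.H357.SymV.n5eC 73 TF.TB) WQ006.W130 := ⟨[0, 8, 16, 24, 32, 40, 48, 760, 792, 816, 832, 840, 848, 856, 4, 12, 20, 28, 36, 44, 52, 60, 68, 76, 84, 92, 100, 108, 116, 124, 132, 140, 148, 156, 164, 172, 180, 188, 196, 204, 6914049, 9506585, 2592537, 9998105, 8093697, 12615681, 4165401, 7241729, 1933313, 12582913, 8650753, 6590297, 8388609, 11534337, 3801217, 2326529, 10715137, 15368193, 4460441,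 2330393],
  Vale.Agent.P032.Lt.q_of (e' := WQ006.e130) (by decide +kernel) WQ006.q130⟩

theorem w131 : Wx (EX1w xs7) Vale.Agent.P032X.Cert.X1b.t1 (Vale.Agent.P032.H357.SymV.n5eC 73 TF.TB) WQ006.W131 := ⟨[0, 8, 16, 24, 32, 40, 48, 832, 840, 848, 856, 4, 12, 20, 28, 36, 44, 52, 60, 68, 76, 84, 92, 100, 108, 116, 124, 132, 140, 148, 9797697, 14909697, 5603801, 5603737, 16253337, 15040577, 9798105, 7700761, 5475137, 3964929, 9797633, 15040513, 9798041, 5477057, 4424473, 3965185, 16253401],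
  Vale.Agent.P032.Lt.q_of (e' := WQ006.e131) (by decide +kernel) WQ006.q131⟩

theorem w132 : Wx (EX1w xs7) Vale.Agent.P032X.Cert.X1b.t1 (Vale.Agent.P032.H357.SymV.n5eC 73 TF.TB) WQ006.W132 := ⟨[0, 8, 16, 24, 32, 40, 48, 840, 848, 856, 4, 12, 20, 28, 36, 44, 52, 60, 68, 76, 84, 92, 100, 108, 116, 124, 132, 140, 11010049, 2264857, 4424025],
  Vale.Agent.P032.Lt.q_of (e' := WQ006.e132) (by decide +kernel) WQ006.q132⟩

theorem w133 : Wx (EX1w xs7) Vale.Agent.P032X.Cert.X1b.t1 (Vale.Agent.P032.H357.SymV.n5eC 73 TF.TB) WQ006.W133 := ⟨[0, 8, 16, 24, 32, 40, 48, 56, 816, 832, 840, 848, 856, 4, 12, 20, 28, 36, 44, 52, 60, 68, 76, 84, 92, 100, 108, 116, 124, 132, 140, 148, 156, 4424985, 3506433, 3506305, 14024705, 7700569, 14024729, 4424961, 7700545, 3506369, 3506393, 14024857, 14024793, 6067521, 4424577, 7700481, 3506497, 14024985, 14024769, 3506521, 4424601, 7700505, 3506177, 14024833, 3506241],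
  Vale.Agent.P032.Lt.q_of (e' := WQ006.e133) (by decide +kernel) WQ006.q133⟩

theorem w134 : Wx (EX1w xs7) Vale.Agent.P032X.Cert.X1b.t1 (Vale.Agent.P032.H357.SymV.n5eC 73 TF.TB) WQ006.W134 := ⟨[0, 8, 16, 24, 32, 40, 48, 792, 816, 832, 840, 848, 856, 4, 12, 20, 28, 36, 44, 52, 60, 68, 76, 84, 92, 100, 108, 116, 124, 132, 12943489, 12943361, 12943617, 12943425, 12943681, 12943553],
  Vale.Agent.P032.Lt.q_of (e' := WQ006.e134) (by decide +kernel) WQ006.q134⟩

theorem w135 : Wx (EX1w xs7) Vale.Agent.P032X.Cert.X1b.t1 (Vale.Agent.P032.H357.SymV.n5eC 73 TF.TB) WQ006.W135 := ⟨[0, 8, 16, 24, 32, 40, 48, 168, 792, 816, 832, 840, 848, 856, 4, 12, 20, 28, 36, 44, 52, 60, 68, 76, 84, 92, 100, 108, 116, 124, 132, 140, 148, 156, 164, 172, 180, 188, 196, 5705625, 4424025, 4424921, 15663105, 6064193, 14913025, 8654617, 6459161, 11931417, 10755225, 10096409, 15798041, 11108353, 5639961, 10719001, 2330393, 3674201, 3673881, 2064385, 5341185,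 12582913, 2719745, 13733657, 7045249, 11698177, 10981273, 14946073, 3309569, 4460313, 2232089, 2326529, 10715137, 688129],
  Vale.Agent.P032.Lt.q_of (e' := WQ006.e135) (by decide +kernel) WQ006.q135⟩

theorem w136 : Wx (EX1w xs7) Vale.Agent.P032X.Cert.X1b.t1 (Vale.Agent.P032.H357.SymV.n5eC 73 TF.TB) WQ007.W136 := ⟨[0, 8, 16, 24, 32, 40, 48, 176, 840, 848, 856, 4, 12, 20, 28, 36, 44, 52, 60, 68, 76, 84, 92, 100, 108, 116, 124, 132, 140, 148, 1048577, 11698177, 8650753, 11927553, 10092545, 7045249, 13733657, 5931009, 15794177, 2232089, 2326529, 10715137, 2363161, 4460313, 3116825, 3670337, 11108353, 9506585, 6914177, 11112217, 5902233, 6455681, 2068249, 12058945, 2264857, 12586777, 4424025, 12582913, 14188545],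
  Vale.Agent.P032.Lt.q_of (e' := WQ007.e136) (by decide +kernel) WQ007.q136⟩

theorem w137 : Wx (EX1w xs7) Vale.Agent.P032X.Cert.X1b.t1 (Vale.Agent.P032.H357.SymV.n5eC 73 TF.TB) WQ007.W137 := ⟨[0, 8, 16, 24, 32, 40, 48, 760, 792, 816, 832, 840, 848, 856, 4, 12, 20, 28, 36, 44, 52, 60, 68, 76, 84, 92, 100, 108, 116, 124, 132, 140, 148, 156, 164, 5479105, 5476801, 2264857, 12586777, 10911745, 4521985, 15175449, 12095257, 13930265, 102169, 2559769, 757529, 1347353, 528153, 983041, 12783385, 15470361, 11079449, 10555161, 13176601, 3538945, 4620289, 12914457, 10325785, 3706649, 6000409, 15240985, 15503129, 14290713, 13766425],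
  Vale.Agent.P032.Lt.q_of (e' := WQ007.e137) (by decide +kernel) WQ007.q137⟩

theorem w138 : Wx (EX1w xs7) Vale.Agent.P032X.Cert.X1b.t1 (Vale.Agent.P032.H357.SymV.n5eC 73 TF.TB) WQ007.W138 := ⟨[0, 8, 16, 24, 32, 40, 48, 840, 848, 856, 4, 12, 20, 28, 36, 44, 52, 60, 68, 76, 84, 92, 100, 108, 116, 124, 132, 12586777, 11501569, 7114521, 1052441, 14912897, 2458433, 6258689, 4424921, 2264857],
  Vale.Agent.P032.Lt.q_of (e' := WQ007.e138) (by decide +kernel) WQ007.q138⟩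

theorem w139 : Wx (EX1w xs7) Vale.Agent.P032X.Cert.X1b.t1 (Vale.Agent.P032.H357.SymV.n5eC 73 TF.TB) WQ007.W139 := ⟨[0, 8, 16, 24, 32, 40, 48, 224, 840, 848, 856, 4, 12, 20, 28, 36, 44, 52, 60, 68, 76, 84, 92, 100, 108, 116, 124, 132, 140, 148, 12586777, 2458689, 8355841, 1048577, 5708481, 3670337, 5963777, 6754073, 6066777, 8982297, 5902233, 6065089, 6750209, 8650753, 14942209, 5636097, 10092545, 10715137, 2326529, 9142273, 7999257, 12058625, 12058945, 11112217, 1703937, 12812289, 269465, 7311129, 10747905, 6983449, 12582913],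
  Vale.Agent.P032.Lt.q_of (e' := WQ007.e139) (by decide +kernel) WQ007.q139⟩

theorem w140 : Wx (EX1w xs7) Vale.Agent.P032X.Cert.X1b.t1 (Vale.Agent.P032.H357.SymV.n5eC 73 TF.TB) WQ007.W140 := ⟨[0, 8, 16, 24, 32, 40, 48, 80, 224, 760, 840, 848, 856, 4, 12, 20, 28, 36, 44, 52, 60, 68, 76, 84, 92, 100, 108, 116, 124, 132, 140, 148, 156, 164, 8359705, 8355841, 4161537, 4424025, 4424921, 6098713, 2424833, 851969, 2952985, 7733249, 3276801, 14614529, 14126873, 1769473, 10944513, 11862017, 1998849, 4263705, 1052441, 691993, 1048577],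
  Vale.Agent.P032.Lt.q_of (e' := WQ007.e140) (by decide +kernel) WQ007.q140⟩

theorem w141 : Wx (EX1w xs7) Vale.Agent.P032X.Cert.X1b.t1 (Vale.Agent.P032.H357.SymV.n5eC 73 TF.TB) WQ007.W141 := ⟨[0, 8, 16, 24, 32, 40, 48, 792, 816, 840, 848, 856, 4, 12, 20, 28, 36, 44, 52, 60, 68, 76, 84, 92, 100, 108, 116, 124, 132, 140, 148, 156, 164, 10755225, 11931417, 8654617, 10719001, 6127617],
  Vale.Agent.P032.Lt.q_of (e' := WQ007.e141) (by decide +kernel) WQ007.q141⟩

theorem w142 : Wx (EX1w xs7) Vale.Agent.P032X.Cert.X1b.t1 (Vale.Agent.P032.H357.SymV.n5eC 73 TF.TB) WQ007.W142 := ⟨[0, 8, 16, 24, 32, 40, 48, 840, 848, 856, 4, 12, 20, 28, 36, 44, 52, 60, 68, 76, 84, 92, 100, 108, 116, 124, 132, 140, 148, 156, 164, 172, 12582913, 11501569, 1052441, 14913025, 12586777, 10096409, 10161945, 8654617, 2264857, 6754073, 6586433, 4424921, 6917913, 10719001, 2330393, 15372057, 1572865, 9864513, 6258689, 2588673, 9732097, 13930265],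
  Vale.Agent.P032.Lt.q_of (e' := WQ007.e142) (by decide +kernel) WQ007.q142⟩

theorem w143 : Wx (EX1w xs7) Vale.Agent.P032X.Cert.X1b.t1 (Vale.Agent.P032.H357.SymV.n5eC 73 TF.TB) WQ007.W143 := ⟨[0, 8, 16, 24, 32, 40, 48, 136, 184, 792, 840, 848, 856, 4, 12, 20, 28, 36, 44, 52, 60, 68, 76, 84, 92, 100, 108, 116, 124, 132, 140, 148, 156, 164, 1052441, 14489553, 11698177, 13729793, 13733657, 7045249, 11702041, 5701761, 3670337, 691993, 7049113, 5345049, 10977281, 14942209, 13408833, 2363161, 2330393, 1052505],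
  Vale.Agent.P032.Lt.q_of (e' := WQ007.e143) (by decide +kernel) WQ007.q143⟩

theorem w144 : Wx (EX1w xs7) Vale.Agent.P032X.Cert.X1b.t1 (Vale.Agent.P032.H357.SymV.n5eC 73 TF.TB) WQ007.W144 := ⟨[0, 8, 16, 24, 32, 40, 48, 208, 792, 840, 848, 856, 4, 12, 20, 28, 36, 44, 52, 60, 68, 76, 84, 92, 100, 108, 116, 124, 132, 140, 148, 156, 164, 12586777, 11501697, 15568665, 2264857, 6098713, 10981273, 5478169, 2458433, 6917913, 691993, 9502721, 7176193, 4424025, 6258689, 10911745, 9994241, 2588673, 5799937, 13930265, 3641113, 10784537, 4194305, 2690841, 1543961, 4689689, 15896345, 8683521, 1048577, 4824217, 8654617, 4161537, 6586433, 8392473, 11538201, 1707801, 10719001, 2330393, 15372057, 1572865, 15798041, 2326529],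
  Vale.Agent.P032.Lt.q_of (e' := WQ007.e144) (by decide +kernel) WQ007.q144⟩

theorem w145 : Wx (EX1w xs7) Vale.Agent.P032X.Cert.X1b.t1 (Vale.Agent.P032.H357.SymV.n5eC 73 TF.TB) WQ007.W145 := ⟨[0, 8, 16, 24, 32, 40, 48, 176, 816, 832, 840, 848, 856, 4, 12, 20, 28, 36, 44, 52, 60, 68, 76, 84, 92, 100, 108, 116, 124, 132, 140, 148, 156, 164, 172, 180, 188, 10682497, 4428225, 4427841, 2260993, 2592537, 4096001, 9735961, 12615681, 1933313, 9506585, 14910361, 11505433, 6914049, 6590297, 6750209, 8650753, 10158081, 10092545, 1576729, 15368193, 10715137, 2326529, 1048577],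
  Vale.Agent.P032.Lt.q_of (e' := WQ007.e145) (by decide +kernel) WQ007.q145⟩

theorem w146 : Wx (EX1w xs7) Vale.Agent.P032X.Cert.X1b.t1 (Vale.Agent.P032.H357.SymV.n5eC 73 TF.TB) WQ007.W146 := ⟨[0, 8, 16, 24, 32, 40, 48, 792, 840, 848, 856, 4, 12, 20, 28, 36, 44, 52, 60, 68, 76, 84, 92, 100, 108, 116, 124, 132, 140, 148, 156, 1736705, 9109505, 11370497, 14811137, 16285697, 5865473, 12156929, 15896345, 12353537, 9043969, 4493081, 5148441, 294913, 2266393],
  Vale.Agent.P032.Lt.q_of (e' := WQ007.e146) (by decide +kernel) WQ007.q146⟩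

theorem w147 : Wx (EX1w xs7) Vale.Agent.P032X.Cert.X1b.t1 (Vale.Agent.P032.H357.SymV.n5eC 73 TF.TB) WQ007.W147 := ⟨[0, 8, 16, 24, 32, 40, 48, 760, 792, 816, 840, 848, 856, 4, 12, 20, 28, 36, 44, 52, 60, 68, 76, 84, 92, 100, 108, 116, 124, 132, 140, 148, 156, 164, 172, 180, 188, 4428225, 14843905, 4427841, 1740569, 9011201, 3244033, 8851225, 4030465, 9015065, 10948377, 7016217, 3407873, 13697025, 2002713, 15306521, 3247897, 16154753, 15302657, 13700889, 12586777, 8355841],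
  Vale.Agent.P032.Lt.q_of (e' := WQ007.e147) (by decide +kernel) WQ007.q147⟩

theorem w148 : Wx (EX1w xs7) Vale.Agent.P032X.Cert.X1b.t1 (Vale.Agent.P032.H357.SymV.n5eC 73 TF.TB) WQ007.W148 := ⟨[0, 8, 16, 24, 32, 40, 48, 536, 840, 848, 856, 4, 12, 20, 28, 36, 44, 52, 60, 68, 76, 84, 92, 100, 108, 116, 124, 132, 140, 148, 156, 12582913, 15564801, 2461209, 2789145, 6094849, 2461337, 4390913, 4165401, 4427841, 8192001, 13303809, 13078297, 196609, 11304961, 2850817, 2883585, 2720041, 13991937, 5148441, 2326529, 10715137, 13107201, 14352385, 8585217, 16158489, 10129177, 6721305, 11665409, 4493081, 5373953, 13012761],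
  Vale.Agent.P032.Lt.q_of (e' := WQ007.e148) (by decide +kernel) WQ007.q148⟩

def L : List (List ℕ) := [WQ004.W85, WQ004.W86, WQ004.W87, WQ004.W88, WQ004.W89, WQ004.W90, WQ004.W91, WQ004.W92, WQ004.W93, WQ004.W94, WQ004.W95, WQ004.W96, WQ004.W97, WQ004.W98, WQ004.W99, WQ004.W100, WQ004.W101, WQ004.W102, WQ004.W103, WQ004.W104, WQ005.W105, WQ005.W106, WQ005.W107, WQ005.W108, WQ005.W109, WQ005.W110, WQ005.W111, WQ005.W112, WQ005.W113, WQ005.W114, WQ005.W115, WQ005.W116, WQ005.W117, WQ005.W118, WQ005.W119, WQ005.W120, WQ005.W121, WQ005.W122, WQ005.W123, WQ005.W124, WQ005.W125, WQ006.W126, WQ006.W127, WQ006.W128, WQ006.W129, WQ006.W130, WQ006.W131, WQ006.W132, WQ006.W133, WQ006.W134, WQ006.W135, WQ007.W136, WQ007.W137, WQ007.W138, WQ007.W139, WQ007.W140, WQ007.W141, WQ007.W142, WQ007.W143, WQ007.W144, WQ007.W145, WQ007.W146, WQ007.W147, WQ007.W148]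

theorem all : ∀ P ∈ L, Wx (EX1w xs7) Vale.Agent.P032X.Cert.X1b.t1 (Vale.Agent.P032.H357.SymV.n5eC 73 TF.TB) P := wx_cons w85 (wx_cons w86 (wx_cons w87 (wx_cons w88 (wx_cons w89 (wx_cons w90 (wx_cons w91 (wx_cons w92 (wx_cons w93 (wx_cons w94 (wx_cons w95 (wx_cons w96 (wx_cons w97 (wx_cons w98 (wx_cons w99 (wx_cons w100 (wx_cons w101 (wx_cons w102 (wx_cons w103 (wx_cons w104 (wx_cons w105 (wx_cons w106 (wx_cons w107 (wx_cons w108 (wx_cons w109 (wx_cons w110 (wx_cons w111 (wx_cons w112 (wx_cons w113 (wx_cons w114 (wx_cons w115 (wx_cons w116 (wx_cons w117 (wx_cons w118 (wx_cons w119 (wx_cons w120 (wx_cons w121 (wx_cons w122 (wx_cons w123 (wx_cons w124 (wx_cons w125 (wx_cons w126 (wx_cons w127 (wx_cons w128 (wx_cons w129 (wx_cons w130 (wx_cons w131 (wx_cons w132 (wx_cons w133 (wx_cons w134 (wx_cons w135 (wx_cons w136 (wx_cons w137 (wx_cons w138 (wx_cons w139 (wx_cons w140 (wx_cons w141 (wx_cons w142 (wx_cons w143 (wx_cons w144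 (wx_cons w145 (wx_cons w146 (wx_cons w147 (wx_cons w148 wx_nil)))))))))))))))))))))))))))))))))))))))))))))))))))))))))))))))

end Vale.Agent.P032X.Cert.X1b.WH001
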