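import Vale.Agent.P032X.H286.A73
import Vale.Agent.P032X.Cert.X1b.WT
import Vale.Agent.P032X.Cert.X1b.WH000
import Vale.Agent.P032X.Cert.X1b.WH001

namespace Vale.Agent.P032X.Cert.X1b

open Vale.Agent.P032.H820.K Vale.Agent.P032.H357.MK Vale.Agent.P032.H286.E Vale.Agent.P032.H61 Vale.Agent.P032.H61.TF Vale.Agent.P032.BlkE Vale.Agent.P032.BlkS Vale.Agent.P032.H357 Vale.Agent.P032 

def LW : List (List ℕ) := (WH000.L ++ WH001.L)

theorem allW : ∀ P ∈ LW, Wx (EX1w xs7) Vale.Agent.P032X.Cert.X1b.t1 (Vale.Agent.P032.H357.SymV.n5eC 73 TF.TB) P :=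
  (List.forall_mem_append.2 ⟨WH000.all, WH001.all⟩)

theorem chW : chT 73 73 TCm tW LW = true := by decide +kernel

end Vale.Agent.P032X.Cert.X1b
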