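import Vale.Agent.P032X.H286.A73
import Vale.Agent.P032X.Cert.X1b.T
import Vale.Agent.P032X.Cert.X1b.A.R0
import Vale.Agent.P032X.Cert.X1b.Y.R1
import Vale.Agent.P032X.Cert.X1b.W
import Vale.Agent.P032X.Cert.X1b.M

namespace Vale.Agent.P032X.Cert.X1b

open Vale.Agent.P032.H820.K Vale.Agent.P032.H357.MK Vale.Agent.P032.H286.E Vale.Agent.P032.H61 Vale.Agent.P032.H61.TF Vale.Agent.P032.BlkE Vale.Agent.P032.BlkS Vale.Agent.P032.H357 Vale.Agent.P032

theorem d : D1 t1 := ⟨A.d0, Y.d1⟩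

theorem d2 : D2 tW := d2_of7 d chW allW

/-- **X1, equal colours** -/
theorem x1b : Dead (kap TF.TC) (CW Vale.Agent.P032.H357.SymV.N55E 5 5 73 TF.TC) [] := x1b_of d d2 qM

end Vale.Agent.P032X.Cert.X1b
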